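import Crest.Agent.N336.T.Energy_Mg
import Crest.Agent.N336.T.Patch_Mg
import Crest.Agent.N336.Defs
import Crest.Agent.N336.P.Defs
import Crest.Agent.N336.TB
import Crest.Agent.N336.P.Geo.Rect
import Crest.Agent.N336.P.Geo.Defs
import Crest.Agent.N336.P.Geo.MacroG

-- ▼ part N336/T/PatchMain
section

/-!
# Row 336: the patch lemma (helper87)
-/

namespace Crest.Agent.N336

theorem patch : PatchStmt := T.patch_of (T.tiltPL T.eng T.energy)

end Crest.Agent.N336
end

-- ▼ part N336/Final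
section

/-!
# Row 336: S0522 from `AreaStmt` (helper43)
-/

set_option autoImplicit false

namespace Crest.Agent.N336

open Crest.MathPhysics.LatticeSpin

/-- The statement of S0522 from the area law in `Sys` form. -/
theorem s0522_of (hA : AreaStmt)
    (q R : ℕ) (J Δ : ℝ) (hq : 1 ≤ q) (hJ : 0 < J) (hΔ : 0 < Δ) :
    ∃ C : ℝ, ∀ (Λ₀ : Finset (ℤ × ℤ))
      (h : Finset ↥Λ₀ → Matrix (↥Λ₀ → Fin q) (↥Λ₀ → Fin q) ℂ),
      IsAdmissibleInteraction (latticeGraph Λ₀) R J h →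
      ∀ (Ω : EuclideanSpace ℂ (↥Λ₀ → Fin q)) (E₀ : ℝ),
        IsGappedGroundVector (∑ X, h X) Ω E₀ Δ →
        ∀ A : Finset ↥Λ₀, entanglementEntropy Ω A ≤ C * (edgeBoundaryCard Λ₀ A : ℝ) := by
  classical
  obtain ⟨C, hC, hA⟩ := hA q R J Δ hq hJ hΔ
  refine ⟨C, fun Λ₀ h hh Ω E₀ hΩ A => ?_⟩
  have hadj : ∀ x y : ↥Λ₀, (latticeGraph Λ₀).Adj x y → |x.1.1 - y.1.1| + |x.1.2 - y.1.2| = 1 := by
    intro x y hxy
    rw [latticeGraph, SimpleGraph.fromRel_adj] at hxy
    rcases hxy.2 with h1 | h1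
    · exact h1
    · rw [abs_sub_comm x.1.1, abs_sub_comm x.1.2]; exact h1
  let s : Sys q R J Δ ↥Λ₀ :=
    { pos := Subtype.val, inj := Subtype.val_injective, G := latticeGraph Λ₀, adj := hadj, h := h,
      adm := hh, Ω := Ω, E := E₀, gap := hΩ }
  refine (hA _ s A).trans (mul_le_mul_of_nonneg_left ?_ hC.le)
  have : s.bd A ≤ edgeBoundaryCard Λ₀ A := by
    unfold Sys.bd edgeBoundaryCard
    refine Finset.card_le_card fun p hp => ?_
    rw [Finset.mem_filter] at hp ⊢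
    exact ⟨hp.1, hadj _ _ hp.2⟩
  exact_mod_cast this

end Crest.Agent.N336
end

-- ▼ part N336/P/Pt
section

/-!
# Row 336: patch families for squares, `pt : PatchStmt → AreaStmt → PtStmt` (helper43)
-/

set_option autoImplicit false

namespace Crest.Agent.N336.P

open Crest.MathPhysics.LatticeSpin

section

variable {q R : ℕ} {J Δ : ℝ} {Λ : Type} [Fintype Λ] [DecidableEq Λ]

omit [DecidableEq Λ] in
theorem mem_sq {pos : Λ → ℤ × ℤ} {x y w : ℤ} {a : Λ} :
    a ∈ sq pos x y w ↔ x ≤ (pos a).1 ∧ (pos a).1 < x + w ∧ y ≤ (pos a).2 ∧ (pos a).2 < y + w := by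
  simp [sq]

/-- Two sites of a non-zero term of range one are equal or adjacent. -/
theorem eq_or_adj (s : Sys q 1 J Δ Λ) {X : Finset Λ} (hX : s.h X ≠ 0) {a b : Λ} (ha : a ∈ X)
    (hb : b ∈ X) : a = b ∨ s.G.Adj a b := by
  have h := (s.adm X).2.2.2
  have h1 : X.Nonempty ∧ ∀ x ∈ X, ∀ y ∈ X, s.G.edist x y ≤ (1 : ℕ) := by
    by_contra hn
    exact hX (h hn)
  have h2 : s.G.edist a b ≤ 1 := by simpa using h1.2 a ha b hb
  rcases SimpleGraph.edist_le_one_iff_adj_or_eq.1 h2 with h3 | h3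
  · exact Or.inr h3
  · exact Or.inl h3

/-- For range one, crossing terms are edges of the boundary. -/
theorem cross_le_bd (s : Sys q 1 J Δ Λ) (A : Finset Λ) : s.cross A ≤ s.bd A := by
  classical
  unfold Sys.cross Sys.bd
  refine le_trans (Finset.card_le_card (t := ((A ×ˢ (Finset.univ \ A)).filter
    fun p : Λ × Λ => s.G.Adj p.1 p.2).image fun p => ({p.1, p.2} : Finset Λ)) ?_)
    (le_trans Finset.card_image_le (le_of_eq (by congr)))
  intro X hX
  obtain ⟨h0, ⟨a, ha, haA⟩, ⟨b, hb, hbA⟩⟩ := (Finset.mem_filter.1 hX).2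
  have hab : s.G.Adj a b := by
    rcases eq_or_adj s h0 ha hb with h | h
    · exact absurd (h ▸ haA) hbA
    · exact h
  refine Finset.mem_image.2 ⟨(a, b), Finset.mem_filter.2 ⟨Finset.mem_product.2
    ⟨haA, Finset.mem_sdiff.2 ⟨Finset.mem_univ _, hbA⟩⟩, hab⟩, ?_⟩
  ext z
  simp only [Finset.mem_insert, Finset.mem_singleton]
  constructor
  · rintro (rfl | rfl)
    · exact ha
    · exact hb
  · intro hz
    rcases eq_or_adj s h0 hz ha with h1 | h1
    · exact Or.inl h1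
    rcases eq_or_adj s h0 hz hb with h2 | h2
    · exact Or.inr h2
    exfalso
    have e1 := s.adj _ _ h1
    have e2 := s.adj _ _ h2
    have e3 := s.adj _ _ hab
    rcases abs_cases ((s.pos z).1 - (s.pos a).1) with h3 | h3 <;>
    rcases abs_cases ((s.pos z).2 - (s.pos a).2) with h4 | h4 <;>
    rcases abs_cases ((s.pos z).1 - (s.pos b).1) with h5 | h5 <;>
    rcases abs_cases ((s.pos z).2 - (s.pos b).2) with h6 | h6 <;>
    rcases abs_cases ((s.pos a).1 - (s.pos b).1) with h7 | h7 <;>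
    rcases abs_cases ((s.pos a).2 - (s.pos b).2) with h8 | h8 <;> omega

/-- The boundary of a square of side `w` has at most `4 w` edges. -/
theorem bd_sq_le (s : Sys q R J Δ Λ) (x y : ℤ) (w : ℕ) : s.bd (sq s.pos x y w) ≤ 4 * w := by
  classical
  unfold Sys.bd
  let T : Finset ((ℤ × ℤ) × (ℤ × ℤ)) :=
    ((Finset.Ico y (y + w)).image fun k => ((x, k), (x - 1, k))) ∪
    ((Finset.Ico y (y + w)).image fun k => ((x + w - 1, k), (x + w, k))) ∪
    ((Finset.Ico x (x + w)).image fun k => ((k, y), (k, y - 1))) ∪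
    ((Finset.Ico x (x + w)).image fun k => ((k, y + w - 1), (k, y + w)))
  have hT : T.card ≤ 4 * w := by
    have h1 : (Finset.Ico y (y + w)).card = w := by simp
    have h2 : (Finset.Ico x (x + w)).card = w := by simp
    refine le_trans (Finset.card_union_le _ _) ?_
    refine le_trans (Nat.add_le_add (Finset.card_union_le _ _) Finset.card_image_le) ?_
    refine le_trans (Nat.add_le_add_right (Nat.add_le_add (Finset.card_union_le _ _)
      Finset.card_image_le) _) ?_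
    refine le_trans (Nat.add_le_add_right (Nat.add_le_add_right
      (Nat.add_le_add Finset.card_image_le Finset.card_image_le) _) _) ?_
    rw [h1, h2]; omega
  refine le_trans (Finset.card_le_card_of_injOn (fun p => (s.pos p.1, s.pos p.2)) ?_ ?_) hT
  · intro p hp
    obtain ⟨h1, h2⟩ := Finset.mem_filter.1 (Finset.mem_coe.1 hp)
    obtain ⟨h3, h4⟩ := Finset.mem_product.1 h1
    have h5 := (Finset.mem_sdiff.1 h4).2
    rw [mem_sq] at h3 h5
    have e := s.adj _ _ h2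
    beta_reduce
    generalize s.pos p.1 = u at *
    generalize s.pos p.2 = v at *
    obtain ⟨u1, u2⟩ := u
    obtain ⟨v1, v2⟩ := v
    simp only [T, Finset.coe_union, Finset.coe_image, Finset.coe_Ico, Set.mem_union,
      Set.mem_image, Set.mem_Ico, Prod.mk.injEq] at *
    have e' : (v1 = u1 - 1 ∧ v2 = u2) ∨ (v1 = u1 + 1 ∧ v2 = u2) ∨ (v1 = u1 ∧ v2 = u2 - 1) ∨
        (v1 = u1 ∧ v2 = u2 + 1) := by
      rcases abs_cases (u1 - v1) with h6 | h6 <;> rcases abs_cases (u2 - v2) with h7 | h7 <;> omega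
    clear e
    rcases e' with e | e | e | e
    · exact Or.inl (Or.inl (Or.inl ⟨u2, by omega⟩))
    · exact Or.inl (Or.inl (Or.inr ⟨u2, by omega⟩))
    · exact Or.inl (Or.inr ⟨u1, by omega⟩)
    · exact Or.inr ⟨u1, by omega⟩
  · intro p _ p' _ h
    obtain ⟨h1, h2⟩ := Prod.mk.inj h
    exact Prod.ext (s.inj h1) (s.inj h2)

end

/-- Patch families for squares. -/
theorem pt (hP : PatchStmt) (hA : AreaStmt) : PtStmt := by
  intro q J Δ hq hJ hΔ
  obtain ⟨c, C, hc, hC, hP⟩ := hP q 1 J Δ hq hJ hΔ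
  obtain ⟨Ca, hCa, hA⟩ := hA q 1 J Δ hq hJ hΔ
  refine ⟨c * Real.sqrt (1 / 128), C * (128 * Ca + 1), by positivity, by positivity, ?_⟩
  intro Λ _ _ s η w B x y t hη hw ht hB
  let A : Fin η → Finset Λ := fun j =>
    sq s.pos (x - η + (j : ℕ)) (y - η + (j : ℕ)) ((w + 2 * η - 2 * j : ℕ) : ℤ)
  have hmem : ∀ (j : Fin η) (a : Λ), a ∈ A j ↔ x - η + (j : ℕ) ≤ (s.pos a).1 ∧
      (s.pos a).1 < x + w + η - (j : ℕ) ∧ y - η + (j : ℕ) ≤ (s.pos a).2 ∧
      (s.pos a).2 < y + w + η - (j : ℕ) := by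
    intro j a
    have := j.2
    simp only [A, mem_sq]
    omega
  have hbd : ∀ j, s.bd (A j) ≤ 128 * η := fun j =>
    le_trans (bd_sq_le s _ _ _) (by omega)
  have hη' : (1 : ℝ) ≤ η := by exact_mod_cast hη
  refine (hP Λ s η (128 * η) A (128 * Ca * η) t hη (by omega)
    (by positivity) ht ?_ ?_ (fun j => (cross_le_bd s _).trans (hbd j)) ?_).elim fun nb h => ?_
  rotate_right
  · obtain ⟨j, a, h1, h2, h3, h4⟩ := h
    refine ⟨nb, fun α => A (j α), a, ?_, fun α => ⟨fun z hz => ?_, fun z hz => ?_⟩, h2, h3,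
      h4.trans (le_of_eq ?_)⟩
    · have : (nb : ℝ) ≤ B := by
        refine h1.trans (le_trans ?_ hB)
        refine mul_le_mul_of_nonneg_left (Real.exp_le_exp.2 ?_) (by positivity)
        nlinarith [mul_pos hC hCa, mul_nonneg (mul_pos hC hCa).le (by linarith : (0 : ℝ) ≤ t),
          mul_nonneg hC.le (by linarith : (0 : ℝ) ≤ η)]
      exact_mod_cast this
    · have := (j α).2
      rw [mem_sq] at hz
      rw [hmem]
      omega
    · have := (j α).2
      rw [mem_sq]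
      rw [hmem] at hz
      omega
    · have e : ((η : ℝ) / ((128 * η : ℕ) : ℝ)) = 1 / 128 := by
        push_cast
        field_simp
      rw [e]
      ring_nf
  · intro i j hij z hz
    have : (i : ℕ) ≤ j := hij
    rw [hmem] at hz ⊢
    omega
  · rintro X hX i j hij ⟨a, ha, haj⟩ z hz
    have : (i : ℕ) < j := hij
    rw [hmem] at haj ⊢
    rcases eq_or_adj s hX ha hz with h | h
    · subst h
      omega
    · have e := s.adj _ _ h
      rcases abs_cases ((s.pos a).1 - (s.pos z).1) with h3 | h3 <;>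
      rcases abs_cases ((s.pos a).2 - (s.pos z).2) with h4 | h4 <;> omega
  · intro j
    refine (hA Λ s (A j)).trans ?_
    have : (s.bd (A j) : ℝ) ≤ 128 * η := by exact_mod_cast hbd j
    nlinarith

end Crest.Agent.N336.P
end

-- ▼ part N336/P/VW/MI
section

/-!
# Row 336, cone decoupling: entropy algebra (helper49)

Monotonicity of the mutual information, subadditivity over finite unions and the two-family
inequality, from symmetry, positivity and submodularity of the entropy.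
-/

set_option autoImplicit false

namespace Crest.Agent.N336.P.VW

open Crest.MathPhysics.LatticeSpin

variable {q : ℕ} {Λ : Type} [Fintype Λ] [DecidableEq Λ] {Ω : Vec Λ q}

/-- The three properties of the entropy of a pure state that are used. -/
structure Ent (Ω : Vec Λ q) : Prop where
  sym : ∀ A : Finset Λ, S Ω Aᶜ = S Ω A
  nn : ∀ A : Finset Λ, 0 ≤ S Ω A
  emp : S Ω ∅ = 0
  sub : ∀ A B : Finset Λ, S Ω (A ∪ B) + S Ω (A ∩ B) ≤ S Ω A + S Ω B

theorem Ent.of (hE : EntStmt) (hΩ : ‖Ω‖ = 1) : Ent Ω := by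
  obtain ⟨E1, E2, E3, -⟩ := hE q Λ Ω hΩ
  refine ⟨E1, fun A => (E2 A).1, le_antisymm ?_ (E2 ∅).1, E3⟩
  simpa using (E2 ∅).2

theorem Ent.union_le (e : Ent Ω) (A B : Finset Λ) : S Ω (A ∪ B) ≤ S Ω A + S Ω B := by
  have := e.sub A B
  have := e.nn (A ∩ B)
  linarith

theorem Ent.biUnion_le (e : Ent Ω) {ι : Type} [DecidableEq ι] (I : Finset ι) (T : ι → Finset Λ)
    (b : ℝ) (hb : ∀ i ∈ I, S Ω (T i) ≤ b) : S Ω (I.biUnion T) ≤ I.card * b := by
  induction I using Finset.induction_on with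
  | empty => simp [e.emp]
  | insert i I hi ih =>
    rw [Finset.biUnion_insert, Finset.card_insert_of_notMem hi]
    have h1 := e.union_le (T i) (I.biUnion T)
    have h2 := ih fun j hj => hb j (Finset.mem_insert_of_mem hj)
    have h3 := hb i (Finset.mem_insert_self _ _)
    push_cast
    linarith

theorem MI_comm (A B : Finset Λ) : MI Ω A B = MI Ω B A := by
  unfold MI
  rw [Finset.union_comm]
  ring

theorem Ent.MI_empty (e : Ent Ω) (F : Finset Λ) : MI Ω ∅ F = 0 := by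
  unfold MI
  rw [e.emp, Finset.empty_union]
  ring

theorem Ent.MI_mono_left (e : Ent Ω) {A A' F : Finset Λ} (h : A ⊆ A') (hd : Disjoint A' F) :
    MI Ω A F ≤ MI Ω A' F := by
  unfold MI
  have h1 := e.sub A' (A ∪ F)
  have e1 : A' ∪ (A ∪ F) = A' ∪ F := by
    rw [← Finset.union_assoc, Finset.union_eq_left.2 h]
  have e2 : A' ∩ (A ∪ F) = A := by
    rw [Finset.inter_union_distrib_left, Finset.inter_eq_right.2 h,
      Finset.disjoint_iff_inter_eq_empty.1 hd, Finset.union_empty]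
  rw [e1, e2] at h1
  linarith

theorem Ent.MI_mono (e : Ent Ω) {A A' F F' : Finset Λ} (h : A ⊆ A') (h' : F ⊆ F')
    (hd : Disjoint A' F') : MI Ω A F ≤ MI Ω A' F' := by
  have h1 := e.MI_mono_left h (hd.mono_right h')
  have h2 := e.MI_mono_left h' hd.symm
  rw [MI_comm F A', MI_comm F' A'] at h2
  linarith

/-- Two-family inequality: `Y` is the complement of everything else. -/
theorem Ent.two_family (e : Ent Ω) {F A X B D Y : Finset Λ}
    (h1 : (F ∪ Y)ᶜ = A ∪ X ∪ B ∪ D) (h2 : (A ∪ X ∪ B ∪ D ∪ F)ᶜ = Y)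
    (h3 : (B ∪ (F ∪ Y))ᶜ = A ∪ X ∪ D) (h4 : (X ∪ (F ∪ A))ᶜ = B ∪ D ∪ Y) :
    MI Ω (A ∪ X ∪ B ∪ D) F ≤ MI Ω A F + MI Ω X (F ∪ A) + MI Ω B (F ∪ Y) + 2 * S Ω D := by
  unfold MI
  have a1 := e.sym (F ∪ Y)
  have a2 := e.sym (A ∪ X ∪ B ∪ D ∪ F)
  have a3 := e.sym (B ∪ (F ∪ Y))
  have a4 := e.sym (X ∪ (F ∪ A))
  rw [h1] at a1
  rw [h2] at a2
  rw [h3] at a3
  rw [h4] at a4
  have b1 := e.union_le (A ∪ X) D
  have b2 := e.union_le A X
  have b3 := e.union_le (B ∪ D) Y
  have b4 := e.union_le B D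
  have b5 : S Ω (A ∪ F) = S Ω (F ∪ A) := by rw [Finset.union_comm]
  linarith

/-- The form that is used: `A' ⊆ A ∪ X ∪ B ∪ D`, with `A, X, B` pairwise disjoint subsets of `A'`,
and `F` disjoint from `A'` and from `D`. -/
theorem Ent.two_family' (e : Ent Ω) {F A' A X B D : Finset Λ} (hc : A' ⊆ A ∪ X ∪ B ∪ D)
    (hA : A ⊆ A') (hX : X ⊆ A') (hB : B ⊆ A') (hAX : Disjoint A X) (hAB : Disjoint A B)
    (hXB : Disjoint X B) (hF : Disjoint A' F) (hD : Disjoint D F) :
    MI Ω A' F ≤ MI Ω A F + MI Ω X (F ∪ A) + MI Ω B A'ᶜ + 2 * S Ω D := by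
  have m := fun {P Q : Finset Λ} (h : Disjoint P Q) (x : Λ) =>
    (Finset.disjoint_left.1 h : ∀ ⦃a⦄, a ∈ P → a ∉ Q) (a := x)
  set Y : Finset Λ := (A' ∪ D ∪ F)ᶜ with hY
  have key := e.two_family (F := F) (A := A \ D) (X := X \ D) (B := B \ D) (D := D) (Y := Y)
    ?_ ?_ ?_ ?_
  · have k1 : MI Ω A' F ≤ MI Ω (A \ D ∪ X \ D ∪ B \ D ∪ D) F := by
      refine e.MI_mono_left (fun x hx => ?_) (Finset.disjoint_left.2 fun x hx => ?_)
      · have := hc hx
        simp only [Finset.mem_union, Finset.mem_sdiff] at this ⊢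
        grind
      · have := m hF x
        have := m hD x
        have := @hA x
        have := @hX x
        have := @hB x
        simp only [Finset.mem_union, Finset.mem_sdiff] at hx
        grind
    have k2 : MI Ω (A \ D) F ≤ MI Ω A F :=
      e.MI_mono_left Finset.sdiff_subset (hF.mono_left hA)
    have k3 : MI Ω (X \ D) (F ∪ A \ D) ≤ MI Ω X (F ∪ A) :=
      e.MI_mono Finset.sdiff_subset (Finset.union_subset_union_right Finset.sdiff_subset)
        (Finset.disjoint_union_right.2 ⟨hF.mono_left hX, hAX.symm⟩)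
    have k4 : MI Ω (B \ D) (F ∪ Y) ≤ MI Ω B A'ᶜ := by
      refine e.MI_mono Finset.sdiff_subset (fun x hx => ?_)
        (Finset.disjoint_left.2 fun x hx hx' => Finset.mem_compl.1 hx' (hB hx))
      have := m hF x
      simp only [hY, Finset.mem_union, Finset.mem_compl] at hx ⊢
      grind
    linarith
  all_goals
    ext x
    have := m hF x
    have := m hD x
    have := m hAX x
    have := m hAB x
    have := m hXB x
    have := @hA x
    have := @hX x
    have := @hB x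
    have := @hc x
    simp only [hY, Finset.mem_union, Finset.mem_compl, Finset.mem_sdiff] at *
    grind

end Crest.Agent.N336.P.VW
end

-- ▼ part N336/P/VW/Geo
section

/-!
# Row 336, cone decoupling: Lipschitz bounds, point counts and charts of a cone (helper49)
-/

set_option autoImplicit false

namespace Crest.Agent.N336.P.VW

open Crest.MathPhysics.LatticeSpin

theorem sd_le {z w : ℤ × ℤ} {r : ℤ} :
    sd z w ≤ r ↔ -r ≤ z.1 - w.1 ∧ z.1 - w.1 ≤ r ∧ -r ≤ z.2 - w.2 ∧ z.2 - w.2 ≤ r := by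
  unfold sd
  rw [max_le_iff, abs_le, abs_le]
  tauto

theorem sd_symm (z w : ℤ × ℤ) : sd z w = sd w z := by
  unfold sd
  rw [abs_sub_comm z.1, abs_sub_comm z.2]

theorem sd_tri (x y z : ℤ × ℤ) : sd x z ≤ sd x y + sd y z := by
  have h1 := sd_le.1 (le_refl (sd x y))
  have h2 := sd_le.1 (le_refl (sd y z))
  rw [sd_le]
  omega

theorem sd_king {z w : ℤ × ℤ} (h1 : |z.1 - w.1| ≤ 1) (h2 : |z.2 - w.2| ≤ 1) : sd z w ≤ 1 :=
  max_le h1 h2

/-- Graph distance dominates the sup-distance of the positions. -/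
theorem sd_le_of_edist {q R : ℕ} {J Δ : ℝ} {Λ : Type} [Fintype Λ] [DecidableEq Λ]
    (s : Sys q R J Δ Λ) {x y : Λ} {w : ℕ} (h : s.G.edist x y ≤ w) :
    sd (s.pos x) (s.pos y) ≤ w := by
  have hne : s.G.edist x y ≠ ⊤ := ne_top_of_le_ne_top (ENat.natCast_ne_top w) h
  obtain ⟨p, hp⟩ := SimpleGraph.exists_walk_of_edist_ne_top hne
  rw [← hp] at h
  have hl : p.length ≤ w := by exact_mod_cast h
  refine le_trans ?_ (Int.ofNat_le.2 hl)
  clear hp h hl hne
  induction p with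
  | nil => simp [sd]
  | @cons a b c h p ih =>
    have e := s.adj _ _ h
    have h1 := abs_nonneg ((s.pos a).1 - (s.pos b).1)
    have h2 := abs_nonneg ((s.pos a).2 - (s.pos b).2)
    have h3 : sd (s.pos a) (s.pos b) ≤ 1 := sd_king (by omega) (by omega)
    have h4 := sd_tri (s.pos a) (s.pos b) (s.pos c)
    simp only [SimpleGraph.Walk.length_cons]
    push_cast
    omega

variable {K ℓ : ℕ} (cn : Cone K ℓ)

/-- The cut-off distance to the apexes. -/
def g (z : ℤ × ℤ) : ℤ := max (cn.gam z) ℓ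

/-- The relative height. -/
def u (z : ℤ × ℤ) : ℤ := cn.f z - g cn z

theorem gam_lip (z w : ℤ × ℤ) : cn.gam z ≤ cn.gam w + sd z w := by
  obtain ⟨p, hp, e⟩ := cn.gam_eq w
  have h1 := cn.gam_le z p hp
  have h2 := sd_tri z w p
  omega

theorem g_lip {z w : ℤ × ℤ} {n : ℕ} (h : sd z w ≤ n) : g cn z ≤ g cn w + n := by
  have := gam_lip cn z w
  unfold g
  omega

theorem f_lip (n : ℕ) : ∀ z w : ℤ × ℤ, sd z w ≤ n → cn.f z ≤ cn.f w + K * n := by
  induction n with
  | zero =>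
    intro z w h
    rw [sd_le] at h
    have : z = w := Prod.ext (by omega) (by omega)
    simp [this]
  | succ n ih =>
    intro z w h
    rw [sd_le] at h
    push_cast at h ⊢
    let z' : ℤ × ℤ := (if z.1 < w.1 then z.1 + 1 else if w.1 < z.1 then z.1 - 1 else z.1,
      if z.2 < w.2 then z.2 + 1 else if w.2 < z.2 then z.2 - 1 else z.2)
    have h1 := cn.lip z z' (by rw [abs_le]; simp only [z']; split_ifs <;> omega)
      (by rw [abs_le]; simp only [z']; split_ifs <;> omega)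
    have h2 := ih z' w (by rw [sd_le]; simp only [z']; split_ifs <;> omega)
    linarith

theorem u_lip {z w : ℤ × ℤ} {n : ℕ} (h : sd z w ≤ n) : u cn z ≤ u cn w + (K + 1) * n := by
  have h1 := f_lip cn n z w h
  have h2 := g_lip cn (z := w) (w := z) (n := n) (by rwa [sd_symm])
  unfold u
  linarith

theorem card_ball (R : ℕ) (T : Finset (ℤ × ℤ)) (hT : ∀ z ∈ T, cn.gam z ≤ R) :
    T.card ≤ K * (2 * R + 1) ^ 2 := by
  have h : T ⊆ cn.Z.biUnion fun p =>
      Finset.Icc (p.1 - R) (p.1 + R) ×ˢ Finset.Icc (p.2 - R) (p.2 + R) := by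
    intro z hz
    obtain ⟨p, hp, e⟩ := cn.gam_eq z
    have h1 := sd_le.1 (e ▸ hT z hz)
    simp only [Finset.mem_biUnion, Finset.mem_product, Finset.mem_Icc]
    exact ⟨p, hp, by omega⟩
  refine (Finset.card_le_card h).trans ((Finset.card_biUnion_le_card_mul _ _
    ((2 * R + 1) ^ 2) fun p _ => ?_).trans (Nat.mul_le_mul_right _ cn.card))
  rw [Finset.card_product, Int.card_Icc, Int.card_Icc]
  have e1 : (p.1 + R + 1 - (p.1 - R)).toNat = 2 * R + 1 := by omega
  have e2 : (p.2 + R + 1 - (p.2 - R)).toNat = 2 * R + 1 := by omega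
  rw [e1, e2, pow_two]

theorem card_sphere (R : ℕ) (v : ℤ) (T : Finset (ℤ × ℤ))
    (hT : ∀ z ∈ T, cn.gam z ≤ R ∧ cn.gam z = v) : T.card ≤ K * (4 * (2 * R + 1)) := by
  have h : T ⊆ cn.Z.biUnion fun p =>
      (({p.1 - v, p.1 + v} : Finset ℤ) ×ˢ Finset.Icc (p.2 - R) (p.2 + R)) ∪
        (Finset.Icc (p.1 - R) (p.1 + R) ×ˢ ({p.2 - v, p.2 + v} : Finset ℤ)) := by
    intro z hz
    obtain ⟨p, hp, e⟩ := cn.gam_eq z
    have h1 := sd_le.1 (e ▸ (hT z hz).1)
    have h2 := sd_le.1 (e ▸ (hT z hz).2.le)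
    have h3 : ¬ sd z p ≤ v - 1 := by have := (hT z hz).2; omega
    rw [sd_le] at h3
    simp only [Finset.mem_biUnion, Finset.mem_union, Finset.mem_product, Finset.mem_Icc,
      Finset.mem_insert, Finset.mem_singleton]
    exact ⟨p, hp, by omega⟩
  refine (Finset.card_le_card h).trans ((Finset.card_biUnion_le_card_mul _ _
    (4 * (2 * R + 1)) fun p _ => ?_).trans (Nat.mul_le_mul_right _ cn.card))
  refine (Finset.card_union_le _ _).trans ?_
  rw [Finset.card_product, Finset.card_product, Int.card_Icc, Int.card_Icc]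
  have e1 : (p.1 + R + 1 - (p.1 - R)).toNat = 2 * R + 1 := by omega
  have e2 : (p.2 + R + 1 - (p.2 - R)).toNat = 2 * R + 1 := by omega
  have e3 : ({p.1 - v, p.1 + v} : Finset ℤ).card ≤ 2 := Finset.card_le_two
  have e4 : ({p.2 - v, p.2 + v} : Finset ℤ).card ≤ 2 := Finset.card_le_two
  rw [e1, e2]
  nlinarith

theorem card_window (R W : ℕ) (a : ℤ) (T : Finset (ℤ × ℤ))
    (hT : ∀ z ∈ T, cn.gam z ≤ R ∧ 0 < cn.f z ∧ a ≤ u cn z ∧ u cn z < a + W) :
    T.card ≤ W * (K * (R + 1)) := by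
  have h : T ⊆ (Finset.Ico a (a + W)).biUnion fun k => T.filter fun z => u cn z = k := by
    intro z hz
    simp only [Finset.mem_biUnion, Finset.mem_Ico, Finset.mem_filter]
    exact ⟨u cn z, (hT z hz).2.2, hz, rfl⟩
  refine (Finset.card_le_card h).trans ((Finset.card_biUnion_le_card_mul _ _
    (K * (R + 1)) fun k _ => ?_).trans (by simp))
  refine cn.lev R k _ fun z hz => ?_
  obtain ⟨h1, h2⟩ := Finset.mem_filter.1 hz
  exact ⟨(hT z h1).1, (hT z h1).2.1, h2⟩

/-- The level function of the charts. -/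
def psi (lo hi thr : ℤ) (z : ℤ × ℤ) : ℤ :=
  max (max (cn.gam z - hi) (lo - g cn z)) ((thr - u cn z + K) / (K + 1))

theorem psi_le {lo hi thr k : ℤ} {z : ℤ × ℤ} : psi cn lo hi thr z ≤ k ↔
    cn.gam z ≤ hi + k ∧ lo - k ≤ g cn z ∧ thr - (K + 1) * k ≤ u cn z := by
  unfold psi
  have h : (thr - u cn z + K) / (K + 1) ≤ k ↔ thr - (K + 1) * k ≤ u cn z := by
    rw [← Int.lt_add_one_iff, Int.ediv_lt_iff_lt_mul (by omega)]
    constructor <;> intro h <;> nlinarith
  rw [max_le_iff, max_le_iff, h]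
  omega

/-- The chart of the region `lo ≤ g`, `gam ≤ hi`, `thr ≤ u`. -/
def chart {q R : ℕ} {J Δ : ℝ} {Λ : Type} [Fintype Λ] [DecidableEq Λ] (s : Sys q R J Δ Λ)
    (lo thr : ℤ) (hi m x : ℕ) (hl : lo < ℓ ∨ (ℓ : ℤ) < lo - m)
    (hpos : 0 < lo - m + thr - (K + 1) * m) (hx : hi + m + 1 ≤ x) :
    Chart s (20 * (K + 1) ^ 2 * x) m where
  U := Finset.univ
  ψ := psi cn lo hi thr
  lip z w h1 h2 := by
    have h := sd_king h1 h2
    have a1 := (psi_le cn).1 (le_refl (psi cn lo hi thr w))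
    have a2 := gam_lip cn z w
    have a3 := g_lip cn (z := w) (w := z) (n := 1) (by rwa [sd_symm])
    have a4 := u_lip cn (z := w) (w := z) (n := 1) (by rwa [sd_symm])
    rw [psi_le]
    push_cast at a3 a4
    refine ⟨by omega, by omega, by linarith⟩
  lev k h0 hk T hT := by
    have hkm : ((K : ℤ) + 1) * k ≤ (K + 1) * m := by gcongr
    have hs : T ⊆ (T.filter (fun z => cn.gam z = hi + k) ∪ T.filter (fun z => cn.gam z = lo - k)) ∪
        T.filter fun z => thr - (K + 1) * k ≤ u cn z ∧ u cn z < thr - (K + 1) * k + (K + 1 : ℕ) := by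
      intro z hz
      have a1 := (psi_le cn).1 (hT z hz).le
      have a2 : ¬ psi cn lo hi thr z ≤ k - 1 := by have := hT z hz; omega
      rw [psi_le, mul_sub, mul_one] at a2
      simp only [Finset.mem_union, Finset.mem_filter, hz, true_and]
      unfold g at a1 a2
      push_cast
      omega
    have hb : ∀ z ∈ T, cn.gam z ≤ (hi + m : ℕ) ∧ 0 < cn.f z := fun z hz => by
      have a1 := (psi_le cn).1 (hT z hz).le
      unfold u at a1
      push_cast
      omega
    have b1 := card_sphere cn (hi + m) (hi + k) (T.filter fun z => cn.gam z = hi + k)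
      fun z hz => ⟨(hb z (Finset.mem_filter.1 hz).1).1, (Finset.mem_filter.1 hz).2⟩
    have b2 := card_sphere cn (hi + m) (lo - k) (T.filter fun z => cn.gam z = lo - k)
      fun z hz => ⟨(hb z (Finset.mem_filter.1 hz).1).1, (Finset.mem_filter.1 hz).2⟩
    have b3 := card_window cn (hi + m) (K + 1) (thr - (K + 1) * k) (T.filter fun z =>
        thr - (K + 1) * k ≤ u cn z ∧ u cn z < thr - (K + 1) * k + (K + 1 : ℕ))
      fun z hz => ⟨(hb z (Finset.mem_filter.1 hz).1).1, (hb z (Finset.mem_filter.1 hz).1).2,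
        (Finset.mem_filter.1 hz).2⟩
    refine (Finset.card_le_card hs).trans ((Finset.card_union_le _ _).trans ?_)
    refine (Nat.add_le_add ((Finset.card_union_le _ _).trans (Nat.add_le_add b1 b2)) b3).trans ?_
    have c1 : K * (4 * (2 * (hi + m) + 1)) ≤ (K + 1) ^ 2 * (8 * x) :=
      Nat.mul_le_mul (by nlinarith) (by omega)
    have c2 : (K + 1) * (K * (hi + m + 1)) ≤ (K + 1) * ((K + 1) * x) := by gcongr; omega
    nlinarith
  tot T hT := by
    refine (card_ball cn (hi + m) T fun z hz => ?_).trans ?_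
    · have a1 := (psi_le cn).1 (hT z hz)
      push_cast
      omega
    · have c1 : (2 * (hi + m) + 1) ^ 2 ≤ (2 * x) ^ 2 := by gcongr; omega
      have c2 : K * 4 ≤ (20 * (K + 1) ^ 2) ^ 2 := by nlinarith [Nat.zero_le (K ^ 2), Nat.zero_le (K ^ 3), Nat.zero_le (K ^ 4)]
      calc _ ≤ K * (2 * x) ^ 2 := by gcongr
        _ = K * 4 * x ^ 2 := by ring
        _ ≤ (20 * (K + 1) ^ 2) ^ 2 * x ^ 2 := by gcongr
        _ = _ := by ring
  closed x y _ _ h := absurd (Finset.mem_univ y) h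

theorem mem_chart {q R : ℕ} {J Δ : ℝ} {Λ : Type} [Fintype Λ] [DecidableEq Λ] {s : Sys q R J Δ Λ}
    {lo thr : ℤ} {hi m x : ℕ} {hl : lo < ℓ ∨ (ℓ : ℤ) < lo - m}
    {hpos : 0 < lo - m + thr - (K + 1) * m} {hx : hi + m + 1 ≤ x} {k : ℤ} {a : Λ} :
    a ∈ (chart cn s lo thr hi m x hl hpos hx).P k ↔ cn.gam (s.pos a) ≤ hi + k ∧
      lo - k ≤ g cn (s.pos a) ∧ thr - (K + 1) * k ≤ u cn (s.pos a) := by
  rw [Chart.mem_P, ← psi_le]
  simp [chart]

end Crest.Agent.N336.P.VW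
end

-- ▼ part N336/P/VW/Step
section

/-!
# Row 336, cone decoupling: the belt of tiles and one step of the multiscale induction (helper49)
-/

set_option autoImplicit false

namespace Crest.Agent.N336.P.VW

open Crest.MathPhysics.LatticeSpin

/-- Index of the tile of side `m` containing a point. -/
def idx (m : ℕ) (z : ℤ × ℤ) : ℤ × ℤ := (z.1 / m, z.2 / m)

theorem idx_eq {m : ℕ} (hm : 1 ≤ m) {z τ : ℤ × ℤ} : idx m z = τ ↔
    τ.1 * m ≤ z.1 ∧ z.1 < τ.1 * m + m ∧ τ.2 * m ≤ z.2 ∧ z.2 < τ.2 * m + m := by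
  have h0 : (0 : ℤ) < m := by exact_mod_cast hm
  have key : ∀ a k : ℤ, a / m = k ↔ k * m ≤ a ∧ a < k * m + m := fun a k => by
    rw [le_antisymm_iff, ← Int.lt_add_one_iff, Int.ediv_lt_iff_lt_mul h0,
      Int.le_ediv_iff_mul_le h0, add_mul, one_mul]
    tauto
  unfold idx
  rw [Prod.ext_iff, key, key]
  tauto

theorem sd_of_idx {m : ℕ} (hm : 1 ≤ m) {z w : ℤ × ℤ} (h : idx m z = idx m w) :
    sd z w ≤ (m - 1 : ℕ) := by
  have h1 := (idx_eq hm).1 h
  have h2 := (idx_eq hm).1 (rfl : idx m w = idx m w)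
  rw [sd_le]
  omega

/-- All points of the tiles with indices in `I`. -/
noncomputable def pts (m : ℕ) (I : Finset (ℤ × ℤ)) : Finset (ℤ × ℤ) :=
  I.biUnion fun τ => Finset.Ico (τ.1 * m) (τ.1 * m + m) ×ˢ Finset.Ico (τ.2 * m) (τ.2 * m + m)

theorem mem_pts {m : ℕ} (hm : 1 ≤ m) {I : Finset (ℤ × ℤ)} {z : ℤ × ℤ} :
    z ∈ pts m I ↔ idx m z ∈ I := by
  simp only [pts, Finset.mem_biUnion, Finset.mem_product, Finset.mem_Ico]
  constructor
  · rintro ⟨τ, h, h1⟩
    rwa [(idx_eq hm).2 (by tauto : τ.1 * m ≤ z.1 ∧ z.1 < τ.1 * m + m ∧ τ.2 * m ≤ z.2 ∧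
      z.2 < τ.2 * m + m)]
  · intro h
    have := (idx_eq hm).1 (rfl : idx m z = idx m z)
    exact ⟨_, h, by tauto⟩

theorem card_pts {m : ℕ} (hm : 1 ≤ m) (I : Finset (ℤ × ℤ)) : m * m * I.card ≤ (pts m I).card := by
  refine Finset.mul_card_image_le_card_of_maps_to (f := idx m) (fun z hz => (mem_pts hm).1 hz) _
    fun τ hτ => ?_
  have h : (Finset.Ico (τ.1 * m) (τ.1 * m + m) ×ˢ Finset.Ico (τ.2 * m) (τ.2 * m + m)).card =
      m * m := by simp
  rw [← h]
  refine Finset.card_le_card fun z hz => ?_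
  simp only [Finset.mem_product, Finset.mem_Ico] at hz
  have e : idx m z = τ := (idx_eq hm).2 (by tauto)
  exact Finset.mem_filter.2 ⟨(mem_pts hm).2 (e ▸ hτ), e⟩

variable {K ℓ : ℕ} (cn : Cone K ℓ)

/-- The corner sites of the belt of radius `r`. -/
def bad {Λ : Type} [Fintype Λ] (pos : Λ → ℤ × ℤ) (m t r : ℕ) : Finset Λ :=
  Finset.univ.filter fun a => (r : ℤ) - m ≤ cn.gam (pos a) ∧ cn.gam (pos a) < r ∧
    -(t : ℤ) ≤ u cn (pos a) ∧ u cn (pos a) < -t + (K + 1) * m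

/-- Some belt has boundedly many corner tiles. -/
theorem exists_belt {Λ : Type} [Fintype Λ] (pos : Λ → ℤ × ℤ) (m t ρ : ℕ) (hm : 1 ≤ m)
    (hf : t + (K + 2) * m ≤ ρ) : ∃ r : ℕ, ρ + m ≤ r ∧ r ≤ 4 * ρ + 7 * m ∧
      ((bad cn pos m t r).image fun a => idx m (pos a)).card ≤ 12 * (K + 1) * K := by
  set J : ℕ := ρ / m + 3 with hJ
  have hJ1 : ρ + 2 * m ≤ J * m := by
    have := Nat.lt_div_mul_add (a := ρ) (b := m) hm
    rw [hJ, add_mul]
    omega
  have hJ2 : J * m ≤ ρ + 3 * m := by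
    have := Nat.div_mul_le_self ρ m
    rw [hJ, add_mul]
    omega
  let I : ℕ → Finset (ℤ × ℤ) := fun i =>
    (bad cn pos m t (ρ + m + 3 * (i * m))).image fun a => idx m (pos a)
  have hQ : ∀ i, ∀ z ∈ pts m (I i), (ρ : ℤ) - m + 3 * (i * m : ℕ) < cn.gam z ∧
      cn.gam z < ρ + 2 * m + 3 * (i * m : ℕ) ∧ -(t : ℤ) - (K + 1) * m ≤ u cn z ∧
      u cn z < -t + 2 * ((K + 1) * m) := by
    intro i z hz
    obtain ⟨a, ha, e⟩ := Finset.mem_image.1 ((mem_pts hm).1 hz)
    have h1 := (Finset.mem_filter.1 ha).2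
    have h2 := sd_of_idx hm e
    have h3 := sd_of_idx hm e.symm
    have h4 := gam_lip cn z (pos a)
    have h5 := gam_lip cn (pos a) z
    have h6 := u_lip cn (n := m) (h2.trans (by omega))
    have h7 := u_lip cn (n := m) (h3.trans (by omega))
    push_cast at h1 ⊢
    omega
  have hd : ((Finset.range J : Finset ℕ) : Set ℕ).PairwiseDisjoint fun i => pts m (I i) := by
    intro i _ j _ hij
    refine Finset.disjoint_left.2 fun z h1 h2 => ?_
    have a1 := hQ i z h1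
    have a2 := hQ j z h2
    rcases lt_or_gt_of_ne hij with h | h
    · have := Nat.mul_le_mul_right m (Nat.succ_le_of_lt h)
      rw [Nat.succ_mul] at this
      omega
    · have := Nat.mul_le_mul_right m (Nat.succ_le_of_lt h)
      rw [Nat.succ_mul] at this
      omega
  have hw := card_window cn (ρ + 3 * (J * m)) (3 * ((K + 1) * m)) (-(t : ℤ) - (K + 1) * m)
    ((Finset.range J).biUnion fun i => pts m (I i)) fun z hz => by
      obtain ⟨i, hi, hz⟩ := Finset.mem_biUnion.1 hz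
      have a1 := hQ i z hz
      have a2 := Nat.mul_le_mul_right m (Nat.succ_le_of_lt (Finset.mem_range.1 hi))
      rw [Nat.succ_mul] at a2
      have a3 : (t : ℤ) + ((K + 1) * m + m) ≤ ρ := by
        have : (t : ℤ) + (K + 2) * m ≤ ρ := by exact_mod_cast hf
        linarith
      have a4 : cn.f z = u cn z + g cn z := by unfold u; ring
      have a5 : cn.gam z ≤ g cn z := le_max_left _ _
      have a6 : ((3 * ((K + 1) * m) : ℕ) : ℤ) = 3 * ((K + 1) * m) := by push_cast; ring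
      rw [a6]
      omega
  rw [Finset.card_biUnion hd] at hw
  have hs : ∑ i ∈ Finset.range J, m * m * (I i).card ≤
      ∑ _i ∈ Finset.range J, m * m * (12 * (K + 1) * K) := by
    refine (Finset.sum_le_sum fun i _ => card_pts hm (I i)).trans (hw.trans ?_)
    rw [Finset.sum_const, Finset.card_range, smul_eq_mul]
    calc _ ≤ 3 * ((K + 1) * m) * (K * (4 * (J * m))) := by gcongr; omega
      _ = _ := by ring
  obtain ⟨i, hi, h⟩ := Finset.exists_le_of_sum_le (s := Finset.range J)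
    ⟨0, Finset.mem_range.2 (Nat.succ_pos _)⟩ hs
  have a2 := Nat.mul_le_mul_right m (Nat.succ_le_of_lt (Finset.mem_range.1 hi))
  rw [Nat.succ_mul] at a2
  exact ⟨ρ + m + 3 * (i * m), by omega, by omega, Nat.le_of_mul_le_mul_left h (by positivity)⟩

/-- The part of the fattened cone region at distance at least `ρ`. -/
def RA {Λ : Type} [Fintype Λ] (pos : Λ → ℤ × ℤ) (ρ t : ℕ) : Finset Λ :=
  Finset.univ.filter fun a => -(t : ℤ) ≤ u cn (pos a) ∧ (ρ : ℤ) ≤ g cn (pos a)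

/-- The fattened far region. -/
def RF {Λ : Type} [Fintype Λ] (pos : Λ → ℤ × ℤ) (t : ℕ) : Finset Λ :=
  Finset.univ.filter fun a => cn.f (pos a) ≤ t

theorem mem_RA {Λ : Type} [Fintype Λ] {pos : Λ → ℤ × ℤ} {ρ t : ℕ} {a : Λ} :
    a ∈ RA cn pos ρ t ↔ -(t : ℤ) ≤ u cn (pos a) ∧ (ρ : ℤ) ≤ g cn (pos a) := by
  simp [RA]

theorem mem_RF {Λ : Type} [Fintype Λ] {pos : Λ → ℤ × ℤ} {t : ℕ} {a : Λ} :
    a ∈ RF cn pos t ↔ cn.f (pos a) ≤ t := by
  simp [RF]

theorem disj_RA {Λ : Type} [Fintype Λ] (pos : Λ → ℤ × ℤ) {ρ t : ℕ} (h : 2 * t < ρ) :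
    Disjoint (RA cn pos ρ t) (RF cn pos t) := by
  refine Finset.disjoint_left.2 fun a h1 h2 => ?_
  rw [mem_RA] at h1
  rw [mem_RF] at h2
  unfold u at h1
  omega

/-- One step: growing the region inwards from radius `ρ` to radius `b`. -/
theorem step {q R : ℕ} {J Δ : ℝ} {Λ : Type} [Fintype Λ] [DecidableEq Λ] (s : Sys q R J Δ Λ)
    (e : Ent s.Ω) (m t b ρ : ℕ) (κ CA : ℝ) (hCA : 0 ≤ CA)
    (harea : ∀ A, S s.Ω A ≤ CA * s.bd A)
    (hcore : ∀ c : Chart s (20 * (K + 1) ^ 2 * (12 * ρ)) m, MI s.Ω (c.P 0) (c.P m)ᶜ ≤ κ)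
    (hm : 1 ≤ m) (hb1 : b < ℓ ∨ ℓ + m < b) (hb2 : 2 * t + (K + 2) * m < b) (hb3 : b + m ≤ ρ)
    (hρ : ℓ + m < ρ) :
    MI s.Ω (RA cn s.pos b t) (RF cn s.pos t) ≤ MI s.Ω (RA cn s.pos ρ t) (RF cn s.pos t) + 2 * κ +
      2 * ((12 * (K + 1) * K : ℕ) * (CA * (4 * m : ℕ))) := by
  obtain ⟨r, hr1, hr2, hI⟩ := exists_belt cn s.pos m t ρ hm (by omega)
  set I := (bad cn s.pos m t r).image fun a => idx m (s.pos a) with hIdef
  have z2 : 2 * (t : ℤ) + ((K + 1) * m + m) < b := by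
    have : 2 * (t : ℤ) + (K + 2) * m < b := by exact_mod_cast hb2
    linarith
  have z3 : (0 : ℤ) ≤ (K + 1) * m := by positivity
  let D : Finset Λ := I.biUnion fun τ => sq s.pos (τ.1 * m) (τ.2 * m) m
  have hD : ∀ a, a ∈ D ↔ idx m (s.pos a) ∈ I := fun a => by
    simp only [D, Finset.mem_biUnion, mem_sq, ← idx_eq hm, exists_eq_right']
  have hSD : S s.Ω D ≤ (12 * (K + 1) * K : ℕ) * (CA * (4 * m : ℕ)) := by
    refine (e.biUnion_le I _ (CA * (4 * m : ℕ)) fun τ _ => (harea _).trans ?_).trans ?_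
    · gcongr
      exact bd_sq_le s _ _ m
    · gcongr
  let cX := chart cn s b (-t) (r - m - 1) m (12 * ρ) (by omega) (by omega) (by omega)
  let cB := chart cn s (r - m) (-t + (K + 1) * m) (r - 1) m (12 * ρ) (by omega) (by omega)
    (by omega)
  have mX : ∀ a k, a ∈ cX.P k ↔ cn.gam (s.pos a) ≤ r - m - 1 + k ∧
      b - k ≤ g cn (s.pos a) ∧ -t - (K + 1) * k ≤ u cn (s.pos a) := fun a k => by
    rw [mem_chart]
    have : ((r - m - 1 : ℕ) : ℤ) = r - m - 1 := by omega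
    rw [this]
  have mB : ∀ a k, a ∈ cB.P k ↔ cn.gam (s.pos a) ≤ r - 1 + k ∧
      r - m - k ≤ g cn (s.pos a) ∧ -t + (K + 1) * m - (K + 1) * k ≤ u cn (s.pos a) := fun a k => by
    rw [mem_chart]
    have : ((r - 1 : ℕ) : ℤ) = r - 1 := by omega
    rw [this]
  have hg : ∀ z, g cn z = max (cn.gam z) ℓ := fun _ => rfl
  have hu : ∀ z, u cn z = cn.f z - g cn z := fun _ => rfl
  have key := e.two_family' (F := RF cn s.pos t) (A' := RA cn s.pos b t) (A := RA cn s.pos r t)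
    (X := cX.P 0) (B := cB.P 0) (D := D) ?_ ?_ ?_ ?_ ?_ ?_ ?_ (disj_RA cn _ (by omega)) ?_
  · have k1 : MI s.Ω (RA cn s.pos r t) (RF cn s.pos t) ≤
        MI s.Ω (RA cn s.pos ρ t) (RF cn s.pos t) := by
      refine e.MI_mono_left (fun a ha => ?_) (disj_RA cn _ (by omega))
      rw [mem_RA] at ha ⊢
      omega
    have k2 : MI s.Ω (cX.P 0) (RF cn s.pos t ∪ RA cn s.pos r t) ≤ κ := by
      refine le_trans (e.MI_mono subset_rfl (fun a ha => Finset.mem_compl.2 fun h => ?_)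
        (Finset.disjoint_left.2 fun a h h' => Finset.mem_compl.1 h'
          (cX.P_mono (by omega) h))) (hcore cX)
      rw [mX] at h
      have := hg (s.pos a)
      have := hu (s.pos a)
      rw [Finset.mem_union, mem_RA, mem_RF] at ha
      omega
    have k3 : MI s.Ω (cB.P 0) (RA cn s.pos b t)ᶜ ≤ κ := by
      refine le_trans (e.MI_mono subset_rfl (Finset.compl_subset_compl.2 fun a h => ?_)
        (Finset.disjoint_left.2 fun a h h' => Finset.mem_compl.1 h'
          (cB.P_mono (by omega) h))) (hcore cB)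
      rw [mB] at h
      rw [mem_RA]
      omega
    linarith
  · intro a ha
    rw [mem_RA] at ha
    simp only [Finset.mem_union, mem_RA, mX, mB, mul_zero, sub_zero, add_zero]
    have := hg (s.pos a)
    by_cases hb : a ∈ bad cn s.pos m t r
    · exact Or.inr ((hD a).2 (Finset.mem_image_of_mem _ hb))
    · left
      simp only [bad, Finset.mem_filter, Finset.mem_univ, true_and] at hb
      omega
  · intro a ha
    rw [mem_RA] at ha ⊢
    omega
  · intro a ha
    rw [mX] at ha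
    rw [mem_RA]
    omega
  · intro a ha
    rw [mB] at ha
    rw [mem_RA]
    omega
  · refine Finset.disjoint_left.2 fun a h1 h2 => ?_
    rw [mem_RA] at h1
    rw [mX] at h2
    have := hg (s.pos a)
    omega
  · refine Finset.disjoint_left.2 fun a h1 h2 => ?_
    rw [mem_RA] at h1
    rw [mB] at h2
    have := hg (s.pos a)
    omega
  · refine Finset.disjoint_left.2 fun a h1 h2 => ?_
    rw [mX] at h1
    rw [mB] at h2
    have := hg (s.pos a)
    omega
  · refine Finset.disjoint_left.2 fun a h1 h2 => ?_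
    obtain ⟨a', ha', e'⟩ := Finset.mem_image.1 ((hD a).1 h1)
    have h3 := (Finset.mem_filter.1 ha').2
    have h4 := u_lip cn (n := m) ((sd_of_idx hm e').trans (by omega))
    have h5 := g_lip cn (n := m) ((sd_of_idx hm e').trans (by omega))
    rw [mem_RF] at h2
    have := hg (s.pos a')
    have := hu (s.pos a)
    omega

end Crest.Agent.N336.P.VW
end

-- ▼ part N336/P/VW/Main
section

/-!
# Row 336: cone decoupling `vw : EntStmt → CoreStmt → AmpStmt → AreaStmt → VWStmt` (helper49)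

Downward induction over the dyadic scales `2 ^ j ℓ`.
-/

set_option autoImplicit false

namespace Crest.Agent.N336.P.VW

open Crest.MathPhysics.LatticeSpin Filter

theorem exch_le {Λ : Type} [Fintype Λ] [DecidableEq Λ] {q : ℕ} {Ω : Vec Λ q} {A F : Finset Λ}
    {ε ε' : ℝ} (h : Exch Ω A F ε) (hε : ε ≤ ε') : Exch Ω A F ε' := by
  obtain ⟨U, h1, h2, h3⟩ := h
  exact ⟨U, h1, h2, h3.trans hε⟩

/-- The multiscale induction, with all constants given. -/
theorem multi {q R : ℕ} {J Δ : ℝ} {Λ : Type} [Fintype Λ] [DecidableEq Λ] (s : Sys q R J Δ Λ)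
    {K ℓ : ℕ} (cn : Cone K ℓ) (e : Ent s.Ω) (N μ : ℕ) (C₀ CA ca ε : ℝ) (hCA : 0 ≤ CA)
    (hN1 : 1 ≤ N) (hμ : 1 ≤ μ) (hℓ : 16 * (K + 1) * N * μ ≤ ℓ)
    (harea : ∀ A, S s.Ω A ≤ CA * s.bd A)
    (hcore : ∀ k : ℕ, 1 ≤ k → ∀ c : Chart s (20 * (K + 1) ^ 2 * (12 * (2 * (k * ℓ)))) (k * μ),
      MI s.Ω (c.P 0) (c.P (k * μ : ℕ))ᶜ ≤ C₀ * (k * μ : ℕ))
    (hN : 1 + 2 * C₀ + 8 * ((12 * (K + 1) * K : ℕ) * CA) ≤ ca / 2 * N)
    (hamp : ∀ (A F A' F' : Finset Λ) (w : ℕ), N * μ ≤ w → Disjoint A' F' →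
      (∀ x ∈ A, ∀ y, s.G.edist x y ≤ w → y ∈ A') → (∀ x ∈ F, ∀ y, s.G.edist x y ≤ w → y ∈ F') →
      MI s.Ω A' F' ≤ ca / 2 * w → Exch s.Ω A F ε)
    (hent : ∀ A F : Finset Λ, Disjoint A F → Exch s.Ω A F ε → MI s.Ω A F ≤ 1) :
    Exch s.Ω (cn.A s.pos) (cn.F s.pos) ε := by
  have one : ∀ k : ℕ, k = 1 ∨ 2 ≤ k →
      MI s.Ω (RA cn s.pos (2 * k * ℓ) ((K + 1) * (2 * k * (N * μ))))
        (RF cn s.pos ((K + 1) * (2 * k * (N * μ)))) ≤ 1 →
      ∀ A F : Finset Λ, A ⊆ RA cn s.pos (k * ℓ) ((K + 1) * (k * (N * μ))) →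
        F ⊆ RF cn s.pos ((K + 1) * (k * (N * μ))) → Exch s.Ω A F ε := by
    intro k hk h A F hA hF
    have hk1 : 1 ≤ k := by omega
    set m := k * μ with hm
    set w := k * (N * μ) with hw
    set T := (K + 1) * w with hT
    set y := k * ℓ with hy
    have e1 : 2 * k * ℓ = 2 * y := by rw [hy]; ring
    have e2 : (K + 1) * (2 * k * (N * μ)) = 2 * T := by rw [hT, hw]; ring
    rw [e1, e2] at h
    have hm1 : 1 ≤ m := Nat.mul_pos hk1 hμ
    have hmw : m ≤ w := Nat.mul_le_mul_left k (Nat.le_mul_of_pos_left μ hN1)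
    have hwT : w ≤ T := Nat.le_mul_of_pos_left w (Nat.succ_pos K)
    have hTy : 16 * T ≤ y := by
      calc 16 * T = k * (16 * (K + 1) * N * μ) := by rw [hT, hw]; ring
        _ ≤ k * ℓ := Nat.mul_le_mul_left k hℓ
    have hKm : (K + 2) * m ≤ 2 * T := by
      calc (K + 2) * m ≤ (2 * (K + 1)) * w := Nat.mul_le_mul (by omega) hmw
        _ = 2 * T := by rw [hT]; ring
    have hℓy : ℓ = y ∨ 2 * ℓ ≤ y := by
      rcases hk with rfl | hk
      · exact Or.inl (by simp [hy])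
      · exact Or.inr (Nat.mul_le_mul_right ℓ hk)
    have st := step cn s e m (2 * T) (y - w) (2 * y) _ CA hCA harea (hcore k hk1) hm1
      (by omega) (by omega) (by omega) (by omega)
    have zT : (T : ℤ) = (K + 1) * w := by rw [hT]; push_cast; ring
    refine hamp A F (RA cn s.pos (y - w) (2 * T)) (RF cn s.pos (2 * T)) w
      (Nat.le_mul_of_pos_left _ hk1) (disj_RA cn _ (by omega)) (fun x hx z hz => ?_)
      (fun x hx z hz => ?_) (st.trans ?_)
    · have h1 := (mem_RA cn).1 (hA hx)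
      have h2 := u_lip cn (sd_le_of_edist s hz)
      have h3 := g_lip cn (sd_le_of_edist s hz)
      rw [mem_RA]
      omega
    · have h1 := (mem_RF cn).1 (hF hx)
      have h2 := f_lip cn w (s.pos z) (s.pos x) (by rw [sd_symm]; exact sd_le_of_edist s hz)
      have h3 : (K : ℤ) * w + w = T := by rw [zT]; ring
      rw [mem_RF]
      omega
    · have h1 : (1 : ℝ) ≤ m := by exact_mod_cast hm1
      have h2 : (w : ℝ) = N * m := by rw [hw, hm]; push_cast; ring
      have h3 := mul_le_mul_of_nonneg_right hN (zero_le_one.trans h1)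
      rw [h2, ← hm]
      push_cast at h3 ⊢
      linarith
  let Q : ℕ → Prop := fun j => MI s.Ω (RA cn s.pos (2 ^ j * ℓ) ((K + 1) * (2 ^ j * (N * μ))))
    (RF cn s.pos ((K + 1) * (2 ^ j * (N * μ)))) ≤ 1
  have hℓ1 : 1 ≤ ℓ := le_trans (Nat.succ_le_of_lt (by positivity)) hℓ
  have down : ∀ j, Q (j + 1) → Q j := fun j h => by
    have hk : 2 ^ j = 1 ∨ 2 ≤ 2 ^ j := by have := Nat.one_le_two_pow (n := j); omega
    refine hent _ _ (disj_RA cn _ ?_) (one (2 ^ j) hk (by rw [← pow_succ']; exact h) _ _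
      subset_rfl subset_rfl)
    calc 2 * ((K + 1) * (2 ^ j * (N * μ))) = 2 ^ j * (2 * (K + 1) * N * μ) := by ring
      _ < 2 ^ j * (16 * (K + 1) * N * μ) := by gcongr; norm_num
      _ ≤ 2 ^ j * ℓ := Nat.mul_le_mul_left _ hℓ
  have all : ∀ d j, Q (j + d) → Q j := fun d => by
    induction d with
    | zero => exact fun j h => h
    | succ d ih => exact fun j h => ih j (down _ h)
  obtain ⟨M, hM⟩ := Finite.exists_le fun a => (g cn (s.pos a)).toNat
  have base : Q (1 + M) := by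
    have h : RA cn s.pos (2 ^ (1 + M) * ℓ) ((K + 1) * (2 ^ (1 + M) * (N * μ))) = ∅ := by
      refine Finset.eq_empty_of_forall_notMem fun a ha => ?_
      have h1 := ((mem_RA cn).1 ha).2
      have h2 := hM a
      have h3 : 1 + M < 2 ^ (1 + M) := Nat.lt_two_pow_self
      have h4 : 2 ^ (1 + M) ≤ 2 ^ (1 + M) * ℓ := Nat.le_mul_of_pos_right _ hℓ1
      omega
    simp only [Q, h, e.MI_empty, zero_le_one]
  refine one 1 (Or.inl rfl) (all M 1 base) _ _ (fun a ha => ?_) (fun a ha => ?_)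
  · have h1 := (Finset.mem_filter.1 ha).2
    rw [mem_RA]
    unfold u g
    omega
  · have h1 := (Finset.mem_filter.1 ha).2
    rw [mem_RF]
    omega

end Crest.Agent.N336.P.VW

namespace Crest.Agent.N336.P

open Crest.MathPhysics.LatticeSpin Filter VW

/-- Cone decoupling. -/
theorem vw (hE : EntStmt) (hC : CoreStmt) (hA : AmpStmt) (hAr : AreaStmt) : VWStmt := by
  intro q R J Δ K hq hJ hΔ
  obtain ⟨γ, C₀, hγ, hγ4, hC₀, hC⟩ := hC q R J Δ hq hJ hΔ
  obtain ⟨ca, Ca, hca, hCa, hA⟩ := hA q R J Δ hq hJ hΔ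
  obtain ⟨CA, hCA, hAr⟩ := hAr q R J Δ hq hJ hΔ
  have hlq : 0 ≤ Real.log q := Real.log_nonneg (by exact_mod_cast hq)
  obtain ⟨N, hN⟩ := exists_nat_ge ((1 + 2 * C₀ + 8 * ((12 * (K + 1) * K : ℕ) * CA)) / (ca / 2))
  rw [div_le_iff₀ (by positivity), mul_comm (N : ℝ)] at hN
  have hN1 : 1 ≤ N := by
    rcases Nat.eq_zero_or_pos N with rfl | h
    · have : (0 : ℝ) ≤ (12 * (K + 1) * K : ℕ) * CA := by positivity
      simp only [Nat.cast_zero, mul_zero] at hN
      linarith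
    · exact h
  set B : ℕ := 16 * (K + 1) * N with hB
  have hB0 : 0 < B := by positivity
  have hBr : (0 : ℝ) < B := by exact_mod_cast hB0
  set K₁ : ℕ := 20 * (K + 1) ^ 2 * 24 with hK₁
  obtain ⟨y₀, hy₀⟩ := eventually_atTop.1 (ev_rpow_le (a := 1 - γ) (b := 1)
    (K := (K₁ : ℝ) ^ (1 - γ)) (c := 1 / (2 * B)) (by linarith) (by positivity))
  set c : ℝ := ca / (128 * (K + 1)) with hc
  have hc0 : 0 < c := by positivity
  set a₁ : ℝ := 2 * Ca + 1 with ha₁
  set a₂ : ℝ := 2 * (20 * (Real.log q + 1) + 1) with ha₂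
  refine ⟨c, (a₁ + a₂) / c + 2 * (y₀ + B), hc0, by positivity, fun Λ _ _ s ℓ cn hℓ => ?_⟩
  obtain ⟨-, -, -, E4⟩ := hE q Λ s.Ω s.gap.1
  set n : ℝ := (Fintype.card Λ : ℝ) with hn
  have hn0 : 0 ≤ n := by positivity
  set L : ℝ := Real.log (n + 2) with hL
  have hL2 : 1 / 2 ≤ L := by
    have h1 := Real.log_two_gt_d9
    have h2 : Real.log 2 ≤ L := Real.log_le_log (by norm_num) (by linarith)
    linarith
  have hexp : Real.exp L = n + 2 := Real.exp_log (by linarith)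
  have p1 : 0 ≤ (a₁ + a₂) / c * L := by positivity
  have p2 : (0 : ℝ) ≤ y₀ := by positivity
  have p3 : (y₀ : ℝ) + B ≤ 2 * (y₀ + B) * L := by
    have := mul_le_mul_of_nonneg_left hL2 (add_nonneg p2 hBr.le)
    linarith
  have l1 : (a₁ + a₂) * L ≤ c * ℓ := by
    have : (a₁ + a₂) / c * L ≤ ℓ := by linarith
    rw [div_mul_eq_mul_div, div_le_iff₀ hc0] at this
    linarith
  have l2 : y₀ + B ≤ ℓ := by
    have : (y₀ : ℝ) + B ≤ ℓ := by linarith
    exact_mod_cast this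
  have q1 : 0 ≤ a₁ * L := by positivity
  have q2 : 0 ≤ a₂ * L := by positivity
  have b1 : Ca * (n + 1) ≤ Real.exp (c * ℓ) := by
    have h1 := Real.add_one_le_exp Ca
    calc Ca * (n + 1) ≤ Real.exp Ca * Real.exp L := by
          rw [hexp]; gcongr <;> linarith
      _ = Real.exp (Ca + L) := (Real.exp_add _ _).symm
      _ ≤ _ := Real.exp_le_exp.2 (by
          have := mul_le_mul_of_nonneg_left hL2 hCa.le
          have : a₁ * L = 2 * (Ca * L) + L := by rw [ha₁]; ring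
          linarith)
  have b2 : 10 * (n * Real.log q + 1) ≤ Real.exp (c * ℓ / 2) := by
    have h1 := Real.add_one_le_exp (10 * (Real.log q + 1))
    calc 10 * (n * Real.log q + 1) ≤ 10 * (Real.log q + 1) * (n + 2) := by linarith
      _ ≤ Real.exp (10 * (Real.log q + 1)) * Real.exp L := by
          rw [hexp]; gcongr; linarith
      _ = Real.exp (10 * (Real.log q + 1) + L) := (Real.exp_add _ _).symm
      _ ≤ _ := Real.exp_le_exp.2 (by
          have := mul_le_mul_of_nonneg_left hL2 (add_nonneg hlq zero_le_one)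
          have : a₂ * L = 40 * ((Real.log q + 1) * L) + 2 * L := by rw [ha₂]; ring
          linarith)
  set μ : ℕ := ℓ / B with hμ
  have hμ1 : 1 ≤ μ := (Nat.le_div_iff_mul_le hB0).2 (by omega)
  have hμ2 : B * μ ≤ ℓ := Nat.mul_div_le ℓ B
  have hμ3 : ℓ ≤ 2 * (B * μ) := by
    have h1 := Nat.lt_div_mul_add (a := ℓ) (b := B) hB0
    have h2 : B ≤ B * μ := Nat.le_mul_of_pos_right B hμ1
    rw [← hμ, mul_comm] at h1
    omega
  have hμ4 : (ℓ : ℝ) ≤ 2 * (B * μ) := by exact_mod_cast hμ3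
  refine multi s cn (Ent.of hE s.gap.1) N μ C₀ CA ca _ hCA.le hN1 hμ1 hμ2 (hAr Λ s)
    (fun k hk ch => ?_) hN (fun A F A' F' w hw hd h1 h2 h3 => ?_) (fun A F hd h => ?_)
  · have e1 : 20 * (K + 1) ^ 2 * (12 * (2 * (k * ℓ))) = K₁ * (k * ℓ) := by rw [hK₁]; ring
    have hy : ℓ ≤ k * ℓ := Nat.le_mul_of_pos_left ℓ hk
    have h1 : 1 ≤ 20 * (K + 1) ^ 2 * (12 * (2 * (k * ℓ))) :=
      Nat.mul_pos (by positivity) (by omega)
    have h2 : ((20 * (K + 1) ^ 2 * (12 * (2 * (k * ℓ))) : ℕ) : ℝ) ^ (1 - γ) ≤ (k * μ : ℕ) := by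
      have h3 := hy₀ (k * ℓ) (by omega)
      rw [e1, Nat.cast_mul, Real.mul_rpow (by positivity) (by positivity)]
      refine h3.trans ?_
      rw [Real.rpow_one, one_div, inv_mul_le_iff₀ (by positivity)]
      push_cast
      have := mul_le_mul_of_nonneg_left hμ4 (Nat.cast_nonneg (α := ℝ) k)
      linarith
    refine (hC Λ s _ _ ch h1 h2).trans (mul_le_mul_of_nonneg_left (le_trans ?_ h2) hC₀.le)
    exact Real.rpow_le_rpow_of_exponent_le (by exact_mod_cast h1) (by linarith)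
  · refine exch_le (hA Λ s A F A' F' w _ hd h1 h2 h3) ?_
    have h4 : (((A ∪ F)ᶜ).card : ℝ) ≤ n := Nat.cast_le.2 (Finset.card_le_univ _)
    have h5 : (N : ℝ) * μ ≤ w := by exact_mod_cast hw
    have h6 : c * ℓ * 4 ≤ ca * w := by
      have e1 : (B : ℝ) = 16 * (K + 1) * N := by rw [hB]; push_cast; ring
      rw [e1] at hμ4
      rw [hc, div_mul_eq_mul_div, div_mul_eq_mul_div, div_le_iff₀ (by positivity)]
      have h7 : (ℓ : ℝ) * 4 ≤ w * (128 * (K + 1)) := by
        have : (K + 1 : ℝ) * (N * μ) ≤ (K + 1) * w := by gcongr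
        linarith
      have := mul_le_mul_of_nonneg_left h7 hca.le
      linarith
    calc _ ≤ Ca * (n + 1) * Real.exp (ca / 2 * w - ca * w) := by gcongr
      _ ≤ Real.exp (c * ℓ) * Real.exp (ca / 2 * w - ca * w) := by gcongr
      _ = Real.exp (c * ℓ + (ca / 2 * w - ca * w)) := (Real.exp_add _ _).symm
      _ ≤ _ := Real.exp_le_exp.2 (by linarith)
  · refine (E4 A F _ hd (Real.exp_pos _).le h).trans ?_
    have h4 : (A.card : ℝ) ≤ n := Nat.cast_le.2 (Finset.card_le_univ _)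
    rw [← Real.exp_half]
    calc 10 * Real.exp (-(c * ℓ) / 2) * (A.card * Real.log q + 1)
        ≤ 10 * Real.exp (-(c * ℓ) / 2) * (n * Real.log q + 1) := by gcongr
      _ = 10 * (n * Real.log q + 1) * Real.exp (-(c * ℓ) / 2) := by ring
      _ ≤ Real.exp (c * ℓ / 2) * Real.exp (-(c * ℓ) / 2) := by gcongr
      _ = 1 := by rw [← Real.exp_add, show c * ℓ / 2 + -(c * ℓ) / 2 = 0 by ring, Real.exp_zero]

end Crest.Agent.N336.P
end

-- ▼ part N336/P/Geo/Sched0
section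

/-!
# Row 336, painter schedule: generic lemmas for the schedule (helper32)

Concatenation of blocks, final decoding, change of generation, painting a family of squares.
-/

set_option autoImplicit false
set_option linter.unusedSectionVars false

namespace Crest.Agent.N336.P.Geo.Sch

open Crest.MathPhysics.LatticeSpin

section generic

variable {Λ Cl : Type} [Fintype Λ] [DecidableEq Λ] [DecidableEq Cl]

theorem blocks_append {β : Type} {Ex Pt : Finset Λ → Finset Λ → Prop} {I : β → Finset Cl}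
    {l l' : List β} {s s₁ s' : CSt Λ Cl} (h : Blocks Ex Pt I l s s₁)
    (h' : Blocks Ex Pt I l' s₁ s') : Blocks Ex Pt I (l ++ l') s s' := by
  induction h with
  | nil s => exact h'
  | cons hm hs _ ih => exact Blocks.cons hm hs (ih h')

theorem seg_decode (Ex Pt : Finset Λ → Finset Λ → Prop) (I : Finset Cl) (col : Λ → Cl)
    (T : Finset (Hole Λ Cl)) : ∀ H : Finset (Hole Λ Cl), T ⊆ H →
    (∀ v ∈ T, v.O.card ≤ K0 ∧ v.tg ∈ I ∧ ∀ z ∈ v.O, col z ∈ I) →
    Seg Ex Pt I T.card ⟨col, H⟩ ⟨col, H \ T⟩ := by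
  induction T using Finset.induction_on with
  | empty => intro H _ _; simpa using Seg.nil _
  | insert v T hv ih =>
    intro H hH hg
    rw [Finset.card_insert_of_notMem hv]
    have hvH : v ∈ H := hH (Finset.mem_insert_self _ _)
    obtain ⟨h1, h2, h3⟩ := hg v (Finset.mem_insert_self _ _)
    refine Seg.cons (s₁ := ⟨col, H.erase v⟩) (Or.inr (Or.inr ⟨v, hvH, h1, h2, h3, rfl, rfl⟩)) ?_
    have e : H \ insert v T = H.erase v \ T := by
      ext w
      simp only [Finset.mem_sdiff, Finset.mem_insert, Finset.mem_erase]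
      tauto
    rw [e]
    refine ih _ (fun w hw => Finset.mem_erase.2 ⟨?_, hH (Finset.mem_insert_of_mem hw)⟩)
      fun w hw => hg w (Finset.mem_insert_of_mem hw)
    rintro rfl
    exact hv hw

theorem blocks_decode {β : Type} (Ex Pt : Finset Λ → Finset Λ → Prop) (I : β → Finset Cl)
    (tg : β → Cl) (col : Λ → Cl) (l : List β) : ∀ H : Finset (Hole Λ Cl),
    (∀ b ∈ l, (H.filter fun v => v.tg = tg b).card ≤ K0 ∧
      ∀ v ∈ H, v.tg = tg b → v.O.card ≤ K0 ∧ v.tg ∈ I b ∧ ∀ z ∈ v.O, col z ∈ I b) →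
    (∀ v ∈ H, ∃ b ∈ l, v.tg = tg b) → Blocks Ex Pt I l ⟨col, H⟩ ⟨col, ∅⟩ := by
  induction l with
  | nil =>
    intro H _ hall
    have : H = ∅ := Finset.eq_empty_of_forall_notMem fun v hv => by simpa using hall v hv
    rw [this]
    exact Blocks.nil _
  | cons b l ih =>
    intro H hg hall
    obtain ⟨h1, h2⟩ := hg b List.mem_cons_self
    refine Blocks.cons h1 (seg_decode Ex Pt (I b) col _ H (Finset.filter_subset _ _) fun v hv =>
      h2 v (Finset.mem_filter.1 hv).1 (Finset.mem_filter.1 hv).2) (ih _ (fun b' hb' => ?_) ?_)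
    · obtain ⟨h3, h4⟩ := hg b' (List.mem_cons_of_mem _ hb')
      exact ⟨(Finset.card_le_card (Finset.filter_subset_filter _ Finset.sdiff_subset)).trans h3,
        fun v hv => h4 v (Finset.mem_sdiff.1 hv).1⟩
    · intro v hv
      rw [Finset.mem_sdiff, Finset.mem_filter] at hv
      obtain ⟨b', hb', e⟩ := hall v hv.1
      rcases List.mem_cons.1 hb' with rfl | hb'
      · exact (hv.2 ⟨hv.1, e⟩).elim
      · exact ⟨b', hb', e⟩

/-- Sites near a vertex lie in the four cells around it. -/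
theorem quad_cl {pos : Λ → ℤ × ℤ} {δ : ℕ} (hδ : 0 < δ) {V : ℤ × ℤ} {r : ℤ} (hr : r ≤ δ) {z : Λ}
    (hz : z ∈ bx pos (δ * V.1, δ * V.2) r) : Quad V (cl δ (pos z)) := by
  rw [mem_bx] at hz
  have hpos : (0 : ℤ) < δ := by exact_mod_cast hδ
  dsimp only at hz
  have h1 : V.1 - 1 ≤ (pos z).1 / δ := Int.le_ediv_of_mul_le hpos (by linarith)
  have h2 : (pos z).1 / δ < V.1 + 1 := Int.ediv_lt_of_lt_mul hpos (by linarith)
  have h3 : V.2 - 1 ≤ (pos z).2 / δ := Int.le_ediv_of_mul_le hpos (by linarith)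
  have h4 : (pos z).2 / δ < V.2 + 1 := Int.ediv_lt_of_lt_mul hpos (by linarith)
  unfold Quad cl
  dsimp only
  omega

/-- The parent cell. -/
def half (X : ℤ × ℤ) : ℤ × ℤ := (X.1 / 2, X.2 / 2)

theorem cl_two (δ : ℕ) (z : ℤ × ℤ) : cl (2 * δ) z = half (cl δ z) := by
  unfold cl half
  dsimp only
  rw [Int.ediv_ediv_of_nonneg (by positivity), Int.ediv_ediv_of_nonneg (by positivity)]
  push_cast
  rw [mul_comm (δ : ℤ) 2]

theorem quad_half {V X : ℤ × ℤ} (h : Quad (2 * V.1, 2 * V.2) X) : Quad V (half X) := by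
  unfold Quad half at *
  dsimp only at *
  omega

theorem quad_lift {V X : ℤ × ℤ} (h : Quad V X) :
    ∃ X', Quad (2 * V.1, 2 * V.2) X' ∧ half X' = X := by
  refine ⟨(V.1 + X.1, V.2 + X.2), ?_, ?_⟩
  · unfold Quad at *
    dsimp only
    omega
  · unfold Quad half at *
    refine Prod.ext ?_ ?_ <;> dsimp only <;> omega

omit [DecidableEq Cl] in
theorem occ_half {κ : ℤ × ℤ → Cl} {V : ℤ × ℤ} {p : Cl} :
    Occ (fun X => κ (half X)) (2 * V.1, 2 * V.2) p ↔ Occ κ V p := by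
  constructor
  · rintro ⟨X, hX, rfl⟩
    exact ⟨half X, quad_half hX, rfl⟩
  · rintro ⟨X, hX, rfl⟩
    obtain ⟨X', h1, rfl⟩ := quad_lift hX
    exact ⟨X', h1, rfl⟩

omit [DecidableEq Cl] in
theorem two_half {κ : ℤ × ℤ → Cl} {V : ℤ × ℤ} :
    Two (fun X => κ (half X)) (2 * V.1, 2 * V.2) ↔ Two κ V := by
  constructor
  · rintro ⟨P, hP⟩
    refine ⟨P, fun X hX => ?_⟩
    obtain ⟨X', h1, rfl⟩ := quad_lift hX
    exact hP X' h1
  · rintro ⟨P, hP⟩
    exact ⟨P, fun X hX => hP _ (quad_half hX)⟩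

omit [DecidableEq Cl] in
theorem three_half {κ : ℤ × ℤ → Cl} {V : ℤ × ℤ} (h : Three κ V) :
    Three (fun X => κ (half X)) (2 * V.1, 2 * V.2) := by
  obtain ⟨h1, y, P, h2, h3, h4, h5⟩ := h
  exact ⟨fun h => h1 (two_half.1 h), y, P, occ_half.2 h2, occ_half.2 h3, occ_half.2 h4,
    fun X hX => h5 _ (quad_half hX)⟩

/-- When every site cell has a new colour, all the holes have the current unit. -/
theorem rep_unit {pos : Λ → ℤ × ℤ} {δ η : ℕ} {New : Cl → Prop} {κ : ℤ × ℤ → Cl}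
    (hδ : 0 < δ) (hη : 14 * η ≤ δ) (hnew : ∀ z, New (κ (cl δ (pos z)))) {h : HD Cl} {V : ℤ × ℤ}
    (hne : (h.hole pos).O.Nonempty) (hV : h.v = (δ * V.1, δ * V.2))
    (he : h.e = η ∨ (h.e = 2 * η ∧ ∀ p, Occ κ V p → ¬ New p)) : h.e = η := by
  rcases he with he | ⟨he, hn⟩
  · exact he
  · obtain ⟨z, hz⟩ := hne
    have hz' : z ∈ bx pos (δ * V.1, δ * V.2) (7 * h.e) := hV ▸ hz
    exact (hn _ ⟨_, quad_cl hδ (by rw [he]; push_cast; omega) hz', rfl⟩ (hnew z)).elim

/-- Change of generation. -/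
theorem rep_half {pos : Λ → ℤ × ℤ} {δ η η' : ℕ} {New New' : Cl → Prop} {κ : ℤ × ℤ → Cl}
    {s : CSt Λ Cl} (hδ : 0 < δ) (h : Rep pos (2 * δ) η' New' κ s) (hη : η' = η ∨ η' = 2 * η)
    (hs : 14 * η' ≤ 2 * δ) (hnew : ∀ z, New' (κ (cl (2 * δ) (pos z))))
    (hold : ∀ z V X, Quad V (cl (2 * δ) (pos z)) → Quad V X → ¬ New (κ X)) :
    Rep pos δ η New (fun X => κ (half X)) s := by
  obtain ⟨h1, HA, h2, h3, h4, h5⟩ := h
  have ev : ∀ V : ℤ × ℤ, ((((2 * δ : ℕ) : ℤ) * V.1, ((2 * δ : ℕ) : ℤ) * V.2) : ℤ × ℤ) =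
      ((δ : ℤ) * (2 * V.1), (δ : ℤ) * (2 * V.2)) := by
    intro V
    refine Prod.ext ?_ ?_ <;> dsimp only <;> push_cast <;> ring
  refine ⟨fun z => by rw [h1 z, cl_two], HA, h2, fun h hh => ?_, h4, fun V hV => ?_⟩
  · obtain ⟨hne, V, hV, h6, h7, h8⟩ := h3 h hh
    have he : h.e = η' := rep_unit (by omega) hs hnew hne hV h8
    refine ⟨hne, (2 * V.1, 2 * V.2), by rw [hV, ev], three_half h6, occ_half.2 h7, ?_⟩
    rcases hη with hη | hη
    · exact Or.inl (he.trans hη)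
    · refine Or.inr ⟨he.trans hη, fun p hp => ?_⟩
      obtain ⟨X, hX, rfl⟩ := occ_half.1 hp
      obtain ⟨z, hz⟩ := hne
      have hz' : z ∈ bx pos (((2 * δ : ℕ) : ℤ) * V.1, ((2 * δ : ℕ) : ℤ) * V.2) (7 * h.e) := hV ▸ hz
      exact hold z V X (quad_cl (by omega) (by rw [he]; push_cast; omega) hz') hX
  · by_cases hx : V.1 % 2 = 1
    · refine Or.inl ⟨(κ (V.1 / 2, V.2 / 2), κ (V.1 / 2, (V.2 - 1) / 2)), fun X hX => ?_⟩
      have e1 : X.1 / 2 = V.1 / 2 := by unfold Quad at hX; omega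
      rcases hX.2 with e | e
      · exact Or.inl (by simp only [half, e1, e])
      · exact Or.inr (by simp only [half, e1, e])
    by_cases hy : V.2 % 2 = 1
    · refine Or.inl ⟨(κ (V.1 / 2, V.2 / 2), κ ((V.1 - 1) / 2, V.2 / 2)), fun X hX => ?_⟩
      have e1 : X.2 / 2 = V.2 / 2 := by unfold Quad at hX; omega
      rcases hX.1 with e | e
      · exact Or.inl (by simp only [half, e1, e])
      · exact Or.inr (by simp only [half, e1, e])
    have eV : V = (2 * (V.1 / 2), 2 * (V.2 / 2)) := by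
      refine Prod.ext ?_ ?_ <;> dsimp only <;> omega
    have eV' : (((δ : ℤ) * V.1, (δ : ℤ) * V.2) : ℤ × ℤ) =
        (((2 * δ : ℕ) : ℤ) * (V.1 / 2, V.2 / 2).1, ((2 * δ : ℕ) : ℤ) * (V.1 / 2, V.2 / 2).2) := by
      rw [ev]
      dsimp only
      congr 2 <;> omega
    rw [eV'] at hV ⊢
    rcases h5 (V.1 / 2, V.2 / 2) (hV.mono (bx_mono (by omega))) with h | h
    · left
      rw [eV]
      exact (two_half (V := (V.1 / 2, V.2 / 2))).2 h
    · exact Or.inr h

/-- Invariant of painting the squares of `T` with the colours `c` over the colouring `base`. -/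
def Inv (c : ℕ × ℕ → Cl) (base : ℤ × ℤ → Cl) (T : Finset (ℕ × ℕ)) (κ : ℤ × ℤ → Cl) : Prop :=
  (∀ X, (∃ q ∈ T, κ X = c q ∧ (sqr q.1 q.2).mem X) ∨
    (κ X = base X ∧ ∀ q ∈ T, ¬ (sqr q.1 q.2).mem X)) ∧
  ∀ A B, κ A ≠ κ B → (∃ q ∈ T, ¬ ((sqr q.1 q.2).mem A ↔ (sqr q.1 q.2).mem B)) ∨
    ((∀ q ∈ T, ¬ (sqr q.1 q.2).mem B) ∧ base A ≠ base B)

omit [DecidableEq Cl] in
theorem inv_empty (c : ℕ × ℕ → Cl) (base : ℤ × ℤ → Cl) : Inv c base ∅ base :=
  ⟨fun X => Or.inr ⟨rfl, by simp⟩, fun A B h => Or.inr ⟨by simp, h⟩⟩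

omit [DecidableEq Cl] in
theorem inv_insert {c : ℕ × ℕ → Cl} {base : ℤ × ℤ → Cl} {T : Finset (ℕ × ℕ)} {κ : ℤ × ℤ → Cl}
    (h : Inv c base T κ) (q : ℕ × ℕ) :
    Inv c base (insert q T) (paint κ (sqr q.1 q.2) (c q)) := by
  refine ⟨fun X => ?_, fun A B hAB => ?_⟩
  · by_cases hX : (sqr q.1 q.2).mem X
    · exact Or.inl ⟨q, Finset.mem_insert_self _ _, by simp [paint, hX], hX⟩
    · rcases h.1 X with ⟨q', hq', e, hm⟩ | ⟨e, hm⟩
      · exact Or.inl ⟨q', Finset.mem_insert_of_mem hq', by simp [paint, hX, e], hm⟩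
      · refine Or.inr ⟨by simp [paint, hX, e], fun q' hq' => ?_⟩
        rcases Finset.mem_insert.1 hq' with rfl | hq'
        · exact hX
        · exact hm q' hq'
  · by_cases hiff : (sqr q.1 q.2).mem A ↔ (sqr q.1 q.2).mem B
    swap
    · exact Or.inl ⟨q, Finset.mem_insert_self _ _, hiff⟩
    by_cases hB : (sqr q.1 q.2).mem B
    · exact (hAB (by simp [paint, hB, hiff.2 hB])).elim
    have hA : ¬ (sqr q.1 q.2).mem A := fun hA => hB (hiff.1 hA)
    rcases h.2 A B (by simpa [paint, hA, hB] using hAB) with ⟨q', hq', hm⟩ | ⟨hm, e⟩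
    · exact Or.inl ⟨q', Finset.mem_insert_of_mem hq', hm⟩
    · refine Or.inr ⟨fun q' hq' => ?_, e⟩
      rcases Finset.mem_insert.1 hq' with rfl | hq'
      · exact hB
      · exact hm q' hq'

theorem edge_h {Q : Rect} {X Y : ℤ} (h : ¬ (Q.mem (X - 1, Y) ↔ Q.mem (X, Y))) :
    (X = Q.x0 ∨ X = Q.x1) ∧ Q.y0 ≤ Y ∧ Y < Q.y1 := by
  simp only [Rect.mem] at h
  omega

theorem edge_v {Q : Rect} {X Y : ℤ} (h : ¬ (Q.mem (X, Y - 1) ↔ Q.mem (X, Y))) :
    (Y = Q.y0 ∨ Y = Q.y1) ∧ Q.x0 ≤ X ∧ X < Q.x1 := by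
  simp only [Rect.mem] at h
  omega

theorem cls_bd (a b : ℤ) : 0 ≤ cls a b ∧ cls a b ≤ 3 := by
  unfold cls
  omega

theorem cls_par {a b a' b' : ℤ} (h : cls a b = cls a' b') : a % 2 = a' % 2 ∧ b % 2 = b' % 2 := by
  unfold cls at h
  omega

theorem line_eq {a a' t t' X : ℤ} (h0 : 0 ≤ t ∧ t ≤ 3) (h0' : 0 ≤ t' ∧ t' ≤ 3)
    (h : X = 32 * a - (17 + t) ∨ X = 32 * a + (17 + t))
    (h' : X = 32 * a' - (17 + t') ∨ X = 32 * a' + (17 + t')) : a = a' ∧ t = t' := by
  omega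

omit [DecidableEq Cl] in
/-- The sides of an unpainted square carry no interface. -/
theorem inv_gen {c : ℕ × ℕ → Cl} {base : ℤ × ℤ → Cl} {T : Finset (ℕ × ℕ)} {κ : ℤ × ℤ → Cl}
    (h : Inv c base T κ) {q : ℕ × ℕ} (hq : q ∉ T) (hb : Gen base (sqr q.1 q.2)) :
    Gen κ (sqr q.1 q.2) := by
  refine ⟨fun X Y hX h1 h2 => ?_, fun X Y hY h1 h2 => ?_⟩
  · by_contra hne
    rcases h.2 _ _ hne with ⟨q', hq', hm⟩ | ⟨-, e⟩
    · have hqq : q'.1 ≠ q.1 ∨ q'.2 ≠ q.2 := by
        by_contra hc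
        push Not at hc
        exact hq (by rw [← Prod.ext hc.1 hc.2]; exact hq')
      obtain ⟨g1, g2, g3⟩ := edge_h hm
      obtain ⟨g4, g5⟩ := line_eq (cls_bd _ _) (cls_bd _ _) hX g1
      have g6 := (cls_par g5).2
      have g7 := cls_bd q.1 q.2
      simp only [sqr, ← g5] at h1 h2 g2 g3
      omega
    · exact e (hb.1 X Y hX h1 h2)
  · by_contra hne
    rcases h.2 _ _ hne with ⟨q', hq', hm⟩ | ⟨-, e⟩
    · have hqq : q'.1 ≠ q.1 ∨ q'.2 ≠ q.2 := by
        by_contra hc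
        push Not at hc
        exact hq (by rw [← Prod.ext hc.1 hc.2]; exact hq')
      obtain ⟨g1, g2, g3⟩ := edge_v hm
      obtain ⟨g4, g5⟩ := line_eq (cls_bd _ _) (cls_bd _ _) hY g1
      have g6 := (cls_par g5).1
      have g7 := cls_bd q.1 q.2
      simp only [sqr, ← g5] at h1 h2 g2 g3
      omega
    · exact e (hb.2 X Y hY h1 h2)

/-- The frame of a square. -/
def Fr (q : ℕ × ℕ) (X : ℤ × ℤ) : Prop :=
  (⟨(sqr q.1 q.2).x0 - 1, (sqr q.1 q.2).x1 + 1, (sqr q.1 q.2).y0 - 1, (sqr q.1 q.2).y1 + 1⟩ :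
    Rect).mem X

/-- Painting all the squares of a family. -/
theorem paint_all {β : Type} {pos : Λ → ℤ × ℤ} {Ex Pt : Finset Λ → Finset Λ → Prop} {δ η : ℕ}
    (hP : PaintSpec (Cl := Cl) pos Ex Pt δ η) (New : Cl → Prop) (c : ℕ × ℕ → Cl)
    (base : ℤ × ℤ → Cl) (blk : ℕ × ℕ → β) (hblk : Function.Injective blk) (I : β → Finset Cl)
    (S : Finset (ℕ × ℕ)) (hc : ∀ q ∈ S, New (c q)) (hinj : ∀ q ∈ S, ∀ q' ∈ S, c q = c q' → q = q')
    (hI : ∀ q ∈ S, ∀ q' ∈ S, q.1 ≤ q'.1 + 1 → q'.1 ≤ q.1 + 1 → q.2 ≤ q'.2 + 1 → q'.2 ≤ q.2 + 1 →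
      c q' ∈ I (blk q))
    (hb : ∀ q ∈ S, Gen base (sqr q.1 q.2) ∧ ∀ X, Fr q X → ¬ New (base X) ∧ base X ∈ I (blk q))
    (s : CSt Λ Cl) (hs : Rep pos δ η New base s) (T : Finset (ℕ × ℕ)) : T ⊆ S →
    ∃ (l : List β) (κ : ℤ × ℤ → Cl) (s' : CSt Λ Cl), l.Nodup ∧ (∀ b ∈ l, ∃ q ∈ T, b = blk q) ∧
      Blocks Ex Pt I l s s' ∧ Rep pos δ η New κ s' ∧ Inv c base T κ := by
  induction T using Finset.induction_on with
  | empty => exact fun _ => ⟨[], base, s, List.nodup_nil, by simp, Blocks.nil _, hs, inv_empty _ _⟩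
  | insert q T hq ih =>
    intro hT
    have hqS : q ∈ S := hT (Finset.mem_insert_self _ _)
    have hTS : T ⊆ S := fun x hx => hT (Finset.mem_insert_of_mem hx)
    obtain ⟨l, κ, s₁, h1, h2, h3, h4, h5⟩ := ih hTS
    obtain ⟨m, s', hm, hseg, hrep⟩ := hP New κ (sqr q.1 q.2) (c q) (I (blk q)) s₁ h4
      (inv_gen h5 hq (hb q hqS).1) (by simp only [sqr, cls]; omega) (by simp only [sqr, cls]; omega)
      (by simp only [sqr, cls]; omega) (by simp only [sqr, cls]; omega) (hc q hqS)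
      (hI q hqS q hqS (by omega) (by omega) (by omega) (by omega)) (fun X hX => by
        rcases h5.1 X with ⟨q', hq', e, hm⟩ | ⟨e, -⟩
        · rw [e]
          refine ⟨fun h => hq (hinj q' (hTS hq') q hqS h ▸ hq'), fun _ => ?_⟩
          simp only [Rect.mem, sqr, cls] at hm hX
          exact hI q hqS q' (hTS hq') (by omega) (by omega) (by omega) (by omega)
        · rw [e]
          obtain ⟨g1, g2⟩ := (hb q hqS).2 X hX
          exact ⟨fun h => g1 (h ▸ hc q hqS), fun _ => g2⟩)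
    refine ⟨l ++ [blk q], _, s', ?_, fun b hb => ?_,
      blocks_append h3 (Blocks.cons hm hseg (Blocks.nil _)), hrep, inv_insert h5 q⟩
    · rw [List.nodup_append]
      refine ⟨h1, List.nodup_singleton _, fun a ha b hb hab => ?_⟩
      obtain ⟨q', hq', rfl⟩ := h2 a ha
      rw [List.mem_singleton] at hb
      exact hq (hblk (hab.trans hb) ▸ hq')
    · rcases List.mem_append.1 hb with hb | hb
      · obtain ⟨q', hq', e⟩ := h2 b hb
        exact ⟨q', Finset.mem_insert_of_mem hq', e⟩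
      · exact ⟨q, Finset.mem_insert_self _ _, List.mem_singleton.1 hb⟩

/-- The number of sites of a box for an injective position. -/
theorem card_bx_le {pos : Λ → ℤ × ℤ} (hpos : Function.Injective pos) (v : ℤ × ℤ) (r : ℕ) :
    (bx pos v r).card ≤ (2 * r) * (2 * r) := by
  have h : (bx pos v r).card ≤
      (Finset.Ico (v.1 - r) (v.1 + r) ×ˢ Finset.Ico (v.2 - r) (v.2 + r)).card := by
    refine Finset.card_le_card_of_injOn pos (fun z hz => ?_) hpos.injOn
    have hz' := mem_bx.1 (Finset.mem_coe.1 hz)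
    simp only [Finset.coe_product, Finset.coe_Ico, Set.mem_prod, Set.mem_Ico]
    omega
  rw [Finset.card_product, Int.card_Ico, Int.card_Ico] at h
  have e1 : (v.1 + r - (v.1 - r)).toNat = 2 * r := by omega
  have e2 : (v.2 + r - (v.2 - r)).toNat = 2 * r := by omega
  rwa [e1, e2] at h

end generic

end Crest.Agent.N336.P.Geo.Sch
end

-- ▼ part N336/P/Geo/Sched
section

/-!
# Row 336, painter schedule: `SchedStmt` (helper32)
-/

set_option autoImplicit false

namespace Crest.Agent.N336.P.Geo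

open Crest.MathPhysics.LatticeSpin

namespace Sch

theorem del_pos (i : ℕ) : 0 < del i := by unfold del; positivity

theorem del_succ (i : ℕ) : del (i + 1) = 2 * del i := by unfold del; ring

theorem amax_lt (L i : ℕ) : amax L i < L + 2 := by
  unfold amax
  have := Nat.div_le_self L (32 * del i)
  omega

theorem amax_succ (L i : ℕ) : amax L (i + 1) = (amax L i - 1) / 2 + 1 := by
  unfold amax
  rw [del_succ, Nat.add_sub_cancel, Nat.div_div_eq_div_mul]
  congr 2
  ring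

theorem top_lt {L top : ℕ} (h : 32 * del top ≤ L) : top < L := by
  unfold del at h
  have := Nat.lt_two_pow_self (n := top)
  omega

theorem pty_eq {L i a b : ℕ} (hi : i < L + 2) (ha : a < L + 2) (hb : b < L + 2) :
    pty L i a b = some (⟨i, hi⟩, ⟨a, ha⟩, ⟨b, hb⟩) := by
  unfold pty
  rw [dif_pos ⟨hi, by simpa using ha, by simpa using hb, by positivity, by positivity⟩]
  simp

/-- The colours of generation `i`. -/
def NewG (L i : ℕ) (p : Pty L) : Prop :=
  ∃ q : Fin (L + 2) × Fin (L + 2) × Fin (L + 2), p = some q ∧ q.1.1 = i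

/-- The squares of generation `i`. -/
def SQ (L i : ℕ) : Finset (ℕ × ℕ) := Finset.range (amax L i + 1) ×ˢ Finset.range (amax L i + 1)

theorem mem_SQ {L i : ℕ} {q : ℕ × ℕ} : q ∈ SQ L i ↔ q.1 ≤ amax L i ∧ q.2 ≤ amax L i := by
  simp [SQ]

/-- The colour of a square. -/
def colr (L i : ℕ) (q : ℕ × ℕ) : Pty L := pty L i q.1 q.2

theorem colr_eq {L i : ℕ} (hi : i < L + 2) {q : ℕ × ℕ} (hq : q ∈ SQ L i) :
    colr L i q = some (⟨i, hi⟩, ⟨q.1, (mem_SQ.1 hq).1.trans_lt (amax_lt L i)⟩,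
      ⟨q.2, (mem_SQ.1 hq).2.trans_lt (amax_lt L i)⟩) := pty_eq _ _ _

theorem newG_colr {L i j : ℕ} (hi : i < L + 2) {q : ℕ × ℕ} (hq : q ∈ SQ L i) :
    NewG L j (colr L i q) ↔ i = j := by
  rw [colr_eq hi hq]
  constructor
  · rintro ⟨q, e, rfl⟩
    rw [Option.some_inj] at e
    rw [← e]
  · rintro rfl
    exact ⟨_, rfl, rfl⟩

theorem colr_inj {L i : ℕ} (hi : i < L + 2) {q q' : ℕ × ℕ} (hq : q ∈ SQ L i) (hq' : q' ∈ SQ L i)
    (h : colr L i q = colr L i q') : q = q' := by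
  rw [colr_eq hi hq, colr_eq hi hq'] at h
  simp only [Option.some_inj, Prod.mk.injEq, Fin.mk.injEq, true_and] at h
  exact Prod.ext h.1 h.2

theorem nb_same {L top i : ℕ} (f : Bool) (hi : i < L + 2) {q q' : ℕ × ℕ} (hq' : q' ∈ SQ L i)
    (h1 : q.1 ≤ q'.1 + 1) (h2 : q'.1 ≤ q.1 + 1) (h3 : q.2 ≤ q'.2 + 1) (h4 : q'.2 ≤ q.2 + 1) :
    colr L i q' ∈ NbI L top (f, i, q.1, q.2) := by
  rw [colr_eq hi hq']
  simp only [NbI, Finset.mem_filter, Finset.mem_univ, true_and]
  exact ⟨(mem_SQ.1 hq').1, (mem_SQ.1 hq').2, Or.inl ⟨h2, h1, h4, h3⟩⟩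

theorem nb_up {L top i : ℕ} (f : Bool) (hi : i + 1 < L + 2) (ht : i + 1 ≤ top) {q q' : ℕ × ℕ}
    (hq' : q' ∈ SQ L (i + 1)) (h1 : q.1 / 2 ≤ q'.1 + 1) (h2 : q'.1 ≤ q.1 / 2 + 1)
    (h3 : q.2 / 2 ≤ q'.2 + 1) (h4 : q'.2 ≤ q.2 / 2 + 1) :
    colr L (i + 1) q' ∈ NbI L top (f, i, q.1, q.2) := by
  rw [colr_eq hi hq']
  simp only [NbI, Finset.mem_filter, Finset.mem_univ, true_and]
  exact ⟨(mem_SQ.1 hq').1, (mem_SQ.1 hq').2, Or.inr ⟨ht, h2, h1, h4, h3⟩⟩

theorem nb_root {L top : ℕ} (f : Bool) (q : ℕ × ℕ) : none ∈ NbI L top (f, top, q.1, q.2) := by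
  simp [NbI]

/-- The region covered by the squares of generation `i`. -/
def Cov (L i : ℕ) (X : ℤ × ℤ) : Prop :=
  -17 ≤ X.1 ∧ X.1 < 32 * amax L i + 17 ∧ -17 ≤ X.2 ∧ X.2 < 32 * amax L i + 17

theorem cov_ex {L i : ℕ} {X : ℤ × ℤ} (h : Cov L i X) : ∃ q ∈ SQ L i, (sqr q.1 q.2).mem X := by
  refine ⟨(min (amax L i) ((X.1 + 16) / 32).toNat, min (amax L i) ((X.2 + 16) / 32).toNat),
    mem_SQ.2 ⟨min_le_left _ _, min_le_left _ _⟩, ?_⟩
  unfold Cov at h
  have h1 := cls_bd (min (amax L i) ((X.1 + 16) / 32).toNat : ℕ)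
    (min (amax L i) ((X.2 + 16) / 32).toNat : ℕ)
  simp only [Rect.mem, sqr]
  generalize cls _ _ = t at h1 ⊢
  omega

theorem site_cell (L i : ℕ) (z : Fin L × Fin L) :
    0 ≤ (cl (del i) (gpos L z)).1 ∧ (cl (del i) (gpos L z)).1 < 32 * amax L i ∧
      0 ≤ (cl (del i) (gpos L z)).2 ∧ (cl (del i) (gpos L z)).2 < 32 * amax L i := by
  have key : ∀ x : ℕ, x < L → x / del i < 32 * amax L i := by
    intro x hx
    have h1 : x / del i ≤ L / del i := Nat.div_le_div_right hx.le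
    have h2 : L / (32 * del i) = L / del i / 32 := by
      rw [Nat.div_div_eq_div_mul, mul_comm]
    unfold amax
    omega
  have h1 := key z.1 z.1.2
  have h2 := key z.2 z.2.2
  simp only [cl, gpos, ← Int.natCast_div]
  generalize z.1.1 / del i = a at h1 ⊢
  generalize z.2.1 / del i = b at h2 ⊢
  omega

theorem cov_quad {L i : ℕ} {z : Fin L × Fin L} {V X : ℤ × ℤ}
    (h : Quad V (cl (del i) (gpos L z))) (hX : Quad V X) : Cov L i X := by
  have := site_cell L i z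
  unfold Quad at h hX
  unfold Cov
  omega

theorem cov_site (L i : ℕ) (z : Fin L × Fin L) : Cov L i (cl (del i) (gpos L z)) :=
  cov_quad (V := cl (del i) (gpos L z)) ⟨Or.inl rfl, Or.inl rfl⟩ ⟨Or.inl rfl, Or.inl rfl⟩

/-- The colouring at the end of generation `i`. -/
def Full (L i : ℕ) (κ : ℤ × ℤ → Pty L) : Prop :=
  (∀ X, Cov L i X → ∃ q ∈ SQ L i, κ X = colr L i q ∧ (sqr q.1 q.2).mem X) ∧
  ∀ A B, Cov L i B → κ A ≠ κ B → ∃ q : ℕ × ℕ, ¬ ((sqr q.1 q.2).mem A ↔ (sqr q.1 q.2).mem B)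

theorem full_of_inv {L i : ℕ} {base κ : ℤ × ℤ → Pty L} (h : Inv (colr L i) base (SQ L i) κ) :
    Full L i κ := by
  refine ⟨fun X hX => ?_, fun A B hB hne => ?_⟩
  · rcases h.1 X with h1 | ⟨-, h1⟩
    · exact h1
    · obtain ⟨q, hq, hm⟩ := cov_ex hX
      exact (h1 q hq hm).elim
  · rcases h.2 A B hne with ⟨q, -, h1⟩ | ⟨h1, -⟩
    · exact ⟨q, h1⟩
    · obtain ⟨q, hq, hm⟩ := cov_ex hB
      exact (h1 q hq hm).elim

theorem cov_half {L i : ℕ} {q : ℕ × ℕ} (hq : q ∈ SQ L i) {X : ℤ × ℤ} (hX : Fr q X) :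
    Cov L (i + 1) (half X) := by
  rw [mem_SQ] at hq
  have h1 := cls_bd q.1 q.2
  have h2 := amax_succ L i
  have h3 : 1 ≤ amax L i := Nat.le_add_left _ _
  simp only [Fr, Rect.mem, sqr] at hX
  simp only [Cov, half]
  generalize cls _ _ = t at h1 hX
  omega

theorem gen_half {L i : ℕ} {κ : ℤ × ℤ → Pty L} (h : Full L (i + 1) κ) {q : ℕ × ℕ}
    (hq : q ∈ SQ L i) : Gen (fun X => κ (half X)) (sqr q.1 q.2) := by
  have h1 := cls_bd q.1 q.2
  refine ⟨fun X Y hX g1 g2 => ?_, fun X Y hY g1 g2 => ?_⟩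
  · by_contra hne
    have hc : Cov L (i + 1) (half (X, Y)) := cov_half hq (by
      simp only [Fr, Rect.mem, sqr] at hX g1 g2 ⊢
      omega)
    obtain ⟨q', hq'⟩ := h.2 _ _ hc hne
    by_cases hx : (X - 1) / 2 = X / 2
    · exact hne (by simp only [half, hx])
    · have e : half (X - 1, Y) = (X / 2 - 1, Y / 2) := by
        refine Prod.ext ?_ rfl
        simp only [half]
        omega
      rw [e] at hq'
      have h2 := (edge_h (X := X / 2) (Y := Y / 2) hq').1
      have h3 := cls_bd q'.1 q'.2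
      simp only [sqr] at hX h2
      omega
  · by_contra hne
    have hc : Cov L (i + 1) (half (X, Y)) := cov_half hq (by
      simp only [Fr, Rect.mem, sqr] at hY g1 g2 ⊢
      omega)
    obtain ⟨q', hq'⟩ := h.2 _ _ hc hne
    by_cases hy : (Y - 1) / 2 = Y / 2
    · exact hne (by simp only [half, hy])
    · have e : half (X, Y - 1) = (X / 2, Y / 2 - 1) := by
        refine Prod.ext rfl ?_
        simp only [half]
        omega
      rw [e] at hq'
      have h2 := (edge_v (X := X / 2) (Y := Y / 2) hq').1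
      have h3 := cls_bd q'.1 q'.2
      simp only [sqr] at hY h2
      omega

theorem base_half {L top i : ℕ} (hi : i + 1 < L + 2) (ht : i + 1 ≤ top) {κ : ℤ × ℤ → Pty L}
    (h : Full L (i + 1) κ) {q : ℕ × ℕ} (hq : q ∈ SQ L i) {X : ℤ × ℤ} (hX : Fr q X) :
    ¬ NewG L i (κ (half X)) ∧ κ (half X) ∈ NbI L top (false, i, q.1, q.2) := by
  obtain ⟨q', hq', e, hm⟩ := h.1 _ (cov_half hq hX)
  rw [e]
  refine ⟨fun hn => by have := (newG_colr hi hq').1 hn; omega, ?_⟩
  have h1 := cls_bd q.1 q.2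
  have h2 := cls_bd q'.1 q'.2
  simp only [Fr, Rect.mem, sqr, half] at hX hm
  exact nb_up false hi ht hq' (by omega) (by omega) (by omega) (by omega)

theorem mem_BS {L top i : ℕ} (f : Bool) (hi : i ≤ top) (hf : f = true → i = 0) {q : ℕ × ℕ}
    (hq : q ∈ SQ L i) : (f, i, q.1, q.2) ∈ BS L top := by
  rw [mem_SQ] at hq
  have := amax_lt L i
  simp only [BS, Finset.mem_filter, Finset.mem_product, Finset.mem_univ, Finset.mem_range, true_and]
  exact ⟨⟨by omega, by omega, by omega⟩, hq.1, hq.2, hf⟩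

theorem unit_le (i i₁ : ℕ) : 14 * 2 ^ min i i₁ ≤ del i := by
  have : 2 ^ min i i₁ ≤ 2 ^ i := Nat.pow_le_pow_right (by norm_num) (min_le_left _ _)
  unfold del
  omega

/-- One generation of the schedule. -/
theorem gen_step {L top i₁ : ℕ} {Ex Pt : Finset (Fin L × Fin L) → Finset (Fin L × Fin L) → Prop}
    {i : ℕ} (hi : i < L + 2) (ht : i ≤ top)
    (hP : PaintSpec (Cl := Pty L) (gpos L) Ex Pt (del i) (2 ^ min i i₁))
    (base : ℤ × ℤ → Pty L)
    (hb : ∀ q ∈ SQ L i, Gen base (sqr q.1 q.2) ∧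
      ∀ X, Fr q X → ¬ NewG L i (base X) ∧ base X ∈ NbI L top (false, i, q.1, q.2))
    (s : CSt (Fin L × Fin L) (Pty L)) (hs : Rep (gpos L) (del i) (2 ^ min i i₁) (NewG L i) base s) :
    ∃ (l : List Blk) (κ : ℤ × ℤ → Pty L) (s' : CSt (Fin L × Fin L) (Pty L)), l.Nodup ∧
      (∀ b ∈ l, b ∈ BS L top ∧ b.1 = false ∧ b.2.1 = i) ∧ Blocks Ex Pt (NbI L top) l s s' ∧
      Rep (gpos L) (del i) (2 ^ min i i₁) (NewG L i) κ s' ∧ Full L i κ := by
  obtain ⟨l, κ, s', h1, h2, h3, h4, h5⟩ := paint_all hP (NewG L i) (colr L i) base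
    (fun q => ((false, i, q.1, q.2) : Blk))
    (fun q q' h => by
      simp only [Prod.mk.injEq, true_and] at h
      exact Prod.ext h.1 h.2)
    (NbI L top) (SQ L i) (fun q hq => (newG_colr hi hq).2 rfl)
    (fun q hq q' hq' h => colr_inj hi hq hq' h)
    (fun q _ q' hq' g1 g2 g3 g4 => nb_same false hi hq' g1 g2 g3 g4) hb s hs (SQ L i) subset_rfl
  refine ⟨l, κ, s', h1, fun b hb => ?_, h3, h4, full_of_inv h5⟩
  obtain ⟨q, hq, rfl⟩ := h2 b hb
  exact ⟨mem_BS false ht (by simp) hq, rfl, rfl⟩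

/-- All the generations from `top` down to `i`. -/
theorem gens {L top i₁ : ℕ} {Ex Pt : Finset (Fin L × Fin L) → Finset (Fin L × Fin L) → Prop}
    (hL : 32 * del top ≤ L)
    (hP : ∀ i ≤ top, PaintSpec (Cl := Pty L) (gpos L) Ex Pt (del i) (2 ^ min i i₁)) (k : ℕ) :
    ∀ i, i + k = top →
    ∃ (l : List Blk) (κ : ℤ × ℤ → Pty L) (s' : CSt (Fin L × Fin L) (Pty L)), l.Nodup ∧
      (∀ b ∈ l, b ∈ BS L top ∧ b.1 = false ∧ i ≤ b.2.1) ∧
      Blocks Ex Pt (NbI L top) l ⟨fun _ => none, ∅⟩ s' ∧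
      Rep (gpos L) (del i) (2 ^ min i i₁) (NewG L i) κ s' ∧ Full L i κ := by
  have htop := top_lt hL
  induction k with
  | zero =>
    intro i hi
    obtain rfl : i = top := by omega
    obtain ⟨l, κ, s', h1, h2, h3, h4, h5⟩ := gen_step (top := i) (by omega) le_rfl (hP i le_rfl)
      (fun _ => none)
      (fun q _ => ⟨⟨fun _ _ _ _ _ => rfl, fun _ _ _ _ _ => rfl⟩,
        fun X _ => ⟨by rintro ⟨q, h, -⟩; simp at h, nb_root false q⟩⟩)
      ⟨fun _ => none, ∅⟩
      ⟨fun _ => rfl, ∅, by simp, by simp, by simp,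
        fun V _ => Or.inl ⟨(none, none), fun _ _ => Or.inl rfl⟩⟩
    exact ⟨l, κ, s', h1, fun b hb => ⟨(h2 b hb).1, (h2 b hb).2.1, (h2 b hb).2.2.ge⟩, h3, h4, h5⟩
  | succ k ih =>
    intro i hi
    obtain ⟨l, κ, s, h1, h2, h3, h4, h5⟩ := ih (i + 1) (by omega)
    have hi1 : i + 1 < L + 2 := by omega
    have hrep : Rep (gpos L) (del i) (2 ^ min i i₁) (NewG L i) (fun X => κ (half X)) s := by
      have hu := unit_le (i + 1) i₁
      rw [del_succ] at h4 hu
      refine rep_half (del_pos i) h4 ?_ hu (fun z => ?_) fun z V X g1 g2 => ?_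
      · rcases le_or_gt i₁ i with h | h
        · left
          rw [min_eq_right h, min_eq_right (by omega)]
        · right
          rw [min_eq_left h, min_eq_left h.le, pow_succ, mul_comm]
      · rw [← del_succ]
        obtain ⟨q, hq, e, -⟩ := h5.1 _ (cov_site L (i + 1) z)
        rw [e]
        exact (newG_colr hi1 hq).2 rfl
      · rw [← del_succ] at g1
        obtain ⟨q, hq, e, -⟩ := h5.1 _ (cov_quad g1 g2)
        rw [e]
        intro hn
        have := (newG_colr hi1 hq).1 hn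
        omega
    obtain ⟨l', κ', s', g1, g2, g3, g4, g5⟩ := gen_step (top := top) (by omega) (by omega)
      (hP i (by omega)) _ (fun q hq => ⟨gen_half h5 hq, fun X hX =>
        base_half hi1 (by omega) h5 hq hX⟩) s hrep
    refine ⟨l ++ l', κ', s', ?_, fun b hb => ?_, blocks_append h3 g3, g4, g5⟩
    · rw [List.nodup_append]
      refine ⟨h1, g1, fun a ha b hb hab => ?_⟩
      have e1 := (h2 a ha).2.2
      have e2 := (g2 b hb).2.2
      rw [hab] at e1
      omega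
    · rcases List.mem_append.1 hb with hb | hb
      · exact ⟨(h2 b hb).1, (h2 b hb).2.1, by have := (h2 b hb).2.2; omega⟩
      · exact ⟨(g2 b hb).1, (g2 b hb).2.1, (g2 b hb).2.2.ge⟩

theorem gpos_inj (L : ℕ) : Function.Injective (gpos L) := by
  intro z w h
  simp only [gpos, Prod.mk.injEq, Nat.cast_inj] at h
  exact Prod.ext (Fin.ext h.1) (Fin.ext h.2)

end Sch

open Sch in
theorem sched : SchedStmt := by
  intro L top i₁ Ex Pt hL _ hP
  have htop := top_lt hL
  have h0 : 0 < L + 2 := by omega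
  obtain ⟨l, κ, s, h1, h2, h3, ⟨h4, HA, h5, h6, h7, -⟩, h8⟩ := gens hL hP top 0 (by omega)
  obtain ⟨col, H⟩ := s
  dsimp only at h4 h5
  subst h5
  have hu : 2 ^ min 0 i₁ = 1 := by simp
  rw [hu] at h6
  have hd : del 0 = 256 := rfl
  -- the holes
  have hhole : ∀ h ∈ HA, h.e = 1 ∧ ∃ V : ℤ × ℤ, h.v = ((del 0 : ℤ) * V.1, (del 0 : ℤ) * V.2) ∧
      (∀ X, Quad V X → Cov L 0 X) ∧
      ∃ X, Quad V X ∧ ∃ q ∈ SQ L 0, h.tg = colr L 0 q ∧ (sqr q.1 q.2).mem X := by
    intro h hh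
    obtain ⟨hne, V, hV, -, ⟨X, hX, hXt⟩, he⟩ := h6 h hh
    have he1 : h.e = 1 := rep_unit (New := NewG L 0) (del_pos 0) (by rw [hd]; norm_num) (fun z => by
      obtain ⟨q, hq, e, -⟩ := h8.1 _ (cov_site L 0 z)
      rw [e]
      exact (newG_colr h0 hq).2 rfl) hne hV he
    obtain ⟨z, hz⟩ := hne
    have hz' : z ∈ bx (gpos L) ((del 0 : ℤ) * V.1, (del 0 : ℤ) * V.2) (7 * h.e) := hV ▸ hz
    have hq := quad_cl (del_pos 0) (by rw [he1, hd]; norm_num) hz'
    refine ⟨he1, V, hV, fun Y hY => cov_quad hq hY, X, hX, ?_⟩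
    obtain ⟨q, hq, e, hm⟩ := h8.1 _ (cov_quad hq hX)
    exact ⟨q, hq, hXt ▸ e, hm⟩
  let blk : ℕ × ℕ → Blk := fun q => (true, 0, q.1, q.2)
  have hdec : Blocks Ex Pt (NbI L top) ((SQ L 0).toList.map blk)
      ⟨col, HA.image (HD.hole (gpos L))⟩ ⟨col, ∅⟩ := by
    refine blocks_decode Ex Pt (NbI L top) (fun b => colr L 0 b.2.2) col _ _ (fun b hb => ?_)
      fun v hv => ?_
    · obtain ⟨q, hq, rfl⟩ := List.mem_map.1 hb
      rw [Finset.mem_toList] at hq
      have hc := cls_bd q.1 q.2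
      refine ⟨?_, fun v hv ht => ?_⟩
      · have e1 : ((HA.image (HD.hole (gpos L))).filter fun v => v.tg = colr L 0 (blk q).2.2) ⊆
            (HA.filter fun h => h.tg = colr L 0 q).image (HD.hole (gpos L)) := by
          intro v hv
          rw [Finset.mem_filter, Finset.mem_image] at hv
          obtain ⟨⟨h, hh, rfl⟩, ht⟩ := hv
          exact Finset.mem_image.2 ⟨h, Finset.mem_filter.2 ⟨hh, ht⟩, rfl⟩
        refine (Finset.card_le_card e1).trans (Finset.card_image_le.trans ?_)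
        have e2 : (HA.filter fun h => h.tg = colr L 0 q).card ≤
            (Finset.Ico (256 * (32 * (q.1 : ℤ) - 21)) (256 * (32 * (q.1 : ℤ) + 21)) ×ˢ
              Finset.Ico (256 * (32 * (q.2 : ℤ) - 21)) (256 * (32 * (q.2 : ℤ) + 21))).card := by
          refine Finset.card_le_card_of_injOn (fun h => h.v) (fun h hh => ?_) fun h hh h' hh' e => ?_
          · rw [Finset.mem_coe, Finset.mem_filter] at hh
            obtain ⟨-, V, hV, -, X, hX, q', hq', e, hm⟩ := hhole h hh.1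
            obtain rfl : q' = q := colr_inj h0 hq' hq (e.symm.trans hh.2)
            simp only [Finset.coe_product, Finset.coe_Ico, Set.mem_prod, Set.mem_Ico, hV, hd]
            simp only [Rect.mem, sqr, Quad] at hm hX
            push_cast
            omega
          · exact h7 h (Finset.mem_filter.1 hh).1 h' (Finset.mem_filter.1 hh').1 e
        rw [Finset.card_product, Int.card_Ico, Int.card_Ico] at e2
        have e3 : ∀ a : ℤ, (256 * (32 * a + 21) - 256 * (32 * a - 21)).toNat = 10752 := by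
          intro a
          omega
        rw [e3, e3] at e2
        exact e2.trans (by unfold K0; norm_num)
      · obtain ⟨h, hh, rfl⟩ := Finset.mem_image.1 hv
        obtain ⟨he, V, hV, hcov, X, hX, q', hq', e, hm⟩ := hhole h hh
        obtain rfl : q' = q := colr_inj h0 hq' hq (e.symm.trans ht)
        refine ⟨?_, ?_, fun z hz => ?_⟩
        · have := card_bx_le (gpos_inj L) h.v 7
          simp only [HD.hole, he]
          refine le_trans (le_of_eq ?_) (this.trans (by unfold K0; norm_num))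
          norm_num
        · change h.tg ∈ _
          rw [e]
          exact nb_same true h0 hq' (by omega) (by omega) (by omega) (by omega)
        · have hz' : z ∈ bx (gpos L) ((del 0 : ℤ) * V.1, (del 0 : ℤ) * V.2) (7 * h.e) := hV ▸ hz
          have hqz := quad_cl (del_pos 0) (by rw [he, hd]; norm_num) hz'
          obtain ⟨q'', hq'', e', hm'⟩ := h8.1 _ (hcov _ hqz)
          rw [h4 z, e']
          have hc' := cls_bd q''.1 q''.2
          simp only [Rect.mem, sqr, Quad] at hm hm' hX hqz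
          exact nb_same true h0 hq'' (by omega) (by omega) (by omega) (by omega)
    · obtain ⟨h, hh, rfl⟩ := Finset.mem_image.1 hv
      obtain ⟨-, V, -, -, X, -, q, hq, e, -⟩ := hhole h hh
      exact ⟨blk q, List.mem_map.2 ⟨q, Finset.mem_toList.2 hq, rfl⟩, e⟩
  refine ⟨l ++ (SQ L 0).toList.map blk, col, ?_, fun b hb => ?_, fun z => ?_, blocks_append h3 hdec⟩
  · rw [List.nodup_append]
    refine ⟨h1, (Finset.nodup_toList _).map fun q q' h => ?_, fun a ha b hb hab => ?_⟩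
    · simp only [blk, Prod.mk.injEq, true_and] at h
      exact Prod.ext h.1 h.2
    · obtain ⟨q, -, rfl⟩ := List.mem_map.1 hb
      have := (h2 a ha).2.1
      rw [hab] at this
      simp [blk] at this
  · rcases List.mem_append.1 hb with hb | hb
    · exact (h2 b hb).1
    · obtain ⟨q, hq, rfl⟩ := List.mem_map.1 hb
      exact mem_BS true (Nat.zero_le _) (fun _ => rfl) (Finset.mem_toList.1 hq)
  · obtain ⟨q, hq, e, hm⟩ := h8.1 _ (cov_site L 0 z)
    exact ⟨q.1, q.2, (mem_SQ.1 hq).1, (mem_SQ.1 hq).2, (h4 z).trans e, hm⟩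

end Crest.Agent.N336.P.Geo
end

-- ▼ part N336/P/Geo/Blocks
section

/-!
# Row 336, painter schedule: from blocks to a plan with routes (helper32)
-/

set_option autoImplicit false

namespace Crest.Agent.N336.P.Geo

open Crest.MathPhysics.LatticeSpin

section aux

variable {Λ Cl : Type} [Fintype Λ] [DecidableEq Λ] [DecidableEq Cl]

theorem Seg.ex {Ex Pt : Finset Λ → Finset Λ → Prop} {I : Finset Cl} {m : ℕ} {s s' : CSt Λ Cl}
    (h : Seg Ex Pt I m s s') :
    ∃ st : ℕ → CSt Λ Cl, st 0 = s ∧ st m = s' ∧ ∀ t < m, Move Ex Pt I (st t) (st (t + 1)) := by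
  induction h with
  | nil s => exact ⟨fun _ => s, rfl, rfl, fun t ht => absurd ht (Nat.not_lt_zero t)⟩
  | @cons m s s₁ s' hm _ ih =>
    obtain ⟨st, h0, h1, h2⟩ := ih
    refine ⟨fun t => match t with | 0 => s | t + 1 => st t, rfl, h1, fun t ht => ?_⟩
    cases t with
    | zero => simpa [h0] using hm
    | succ t => exact h2 t (by omega)

theorem Blocks.ex {β : Type} [DecidableEq β] {Ex Pt : Finset Λ → Finset Λ → Prop}
    {I : β → Finset Cl} {l : List β} {s s' : CSt Λ Cl} (h : Blocks Ex Pt I l s s') :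
    ∃ (n : ℕ) (st : ℕ → CSt Λ Cl) (blk : ℕ → Option β), st 0 = s ∧ st n = s' ∧
      (∀ t < n, ∃ b ∈ l, blk t = some b ∧ Move Ex Pt (I b) (st t) (st (t + 1))) ∧
      ∀ b, ((Finset.range n).filter fun t => blk t = some b).card ≤ K0 * l.count b := by
  induction h with
  | nil s =>
    exact ⟨0, fun _ => s, fun _ => none, rfl, rfl, fun t ht => absurd ht (Nat.not_lt_zero t),
      fun b => by simp⟩
  | @cons b l m s s₁ s' hm hs _ ih =>
    obtain ⟨n, st, blk, h0, h1, h2, h3⟩ := ih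
    obtain ⟨su, g0, g1, g2⟩ := hs.ex
    refine ⟨m + n, fun t => if t ≤ m then su t else st (t - m),
      fun t => if t < m then some b else blk (t - m), by simp [g0], ?_, fun t ht => ?_,
      fun b' => ?_⟩
    · by_cases hn : n = 0
      · subst hn; simp [g1, ← h0, ← h1]
      · have : ¬ m + n ≤ m := by omega
        simp [this, h1]
    · by_cases htm : t < m
      · refine ⟨b, List.mem_cons_self, by simp [htm], ?_⟩
        have e1 : t ≤ m := htm.le
        have e2 : t + 1 ≤ m := htm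
        simp only [e1, e2, if_true]
        exact g2 t htm
      · obtain ⟨b', hb', e, hmv⟩ := h2 (t - m) (by omega)
        refine ⟨b', List.mem_cons_of_mem _ hb', by simp [htm, e], ?_⟩
        have e2 : ¬ t + 1 ≤ m := by omega
        have e3 : t + 1 - m = t - m + 1 := by omega
        simp only [e2, if_false, e3]
        by_cases e1 : t ≤ m
        · have : t = m := by omega
          subst this
          simpa [g1, h0] using hmv
        · simpa [e1] using hmv
    · have hsub : ((Finset.range (m + n)).filter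
            fun t => (if t < m then some b else blk (t - m)) = some b') ⊆
          ((Finset.range m).filter fun _ => b = b') ∪
            ((Finset.range n).filter fun t => blk t = some b').image (· + m) := by
        intro t ht
        simp only [Finset.mem_filter, Finset.mem_range, Finset.mem_union, Finset.mem_image] at ht ⊢
        by_cases htm : t < m
        · left; simpa [htm] using ht.2
        · right
          exact ⟨t - m, ⟨by omega, by simpa [htm] using ht.2⟩, by omega⟩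
      refine (Finset.card_le_card hsub).trans ((Finset.card_union_le _ _).trans ?_)
      have a1 := (Finset.card_image_le (s := (Finset.range n).filter fun t => blk t = some b')
        (f := (· + m))).trans (h3 b')
      by_cases hb : b = b'
      · subst hb
        have a2 : ((Finset.range m).filter fun _ => b = b).card ≤ K0 := by simpa using hm
        rw [List.count_cons_self, Nat.mul_succ]; omega
      · rw [List.count_cons_of_ne hb]
        simpa [hb] using a1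

end aux

/-- Counting through the blocks. -/
theorem card_filter_blk {β : Type} [DecidableEq β] {n : ℕ} {blk : ℕ → Option β} {S : Finset β}
    (hf : ∀ b, ((Finset.range n).filter fun t => blk t = some b).card ≤ K0)
    (P : ℕ → Prop) [DecidablePred P] (T : Finset β)
    (h : ∀ t < n, P t → ∃ b ∈ T, blk t = some b) :
    ((Finset.range n).filter P).card ≤ K0 * T.card := by
  have hsub : (Finset.range n).filter P ⊆
      T.biUnion fun b => (Finset.range n).filter fun t => blk t = some b := by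
    intro t ht
    simp only [Finset.mem_filter, Finset.mem_range, Finset.mem_biUnion] at ht ⊢
    obtain ⟨b, hb, e⟩ := h t ht.1 ht.2
    exact ⟨b, hb, ht.1, e⟩
  refine (Finset.card_le_card hsub).trans (Finset.card_biUnion_le.trans ?_)
  refine (Finset.sum_le_card_nsmul _ _ K0 fun b _ => hf b).trans ?_
  rw [smul_eq_mul, mul_comm]

theorem blocks : BlocksStmt := by
  intro L Pa β _ _ _ S κ Ex Pt fin I l root hnd hS hB ⟨R⟩
  obtain ⟨n, st, blk, h0, h1, h2, h3⟩ := hB.ex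
  have hf : ∀ b, ((Finset.range n).filter fun t => blk t = some b).card ≤ K0 := fun b =>
    (h3 b).trans (by
      have := List.nodup_iff_count_le_one.1 hnd b
      calc K0 * l.count b ≤ K0 * 1 := Nat.mul_le_mul_left _ this
        _ = K0 := mul_one _)
  let I' : ℕ → Finset Pa := fun t => ((blk t).map I).getD ∅
  let rg' : ℕ → Finset (Fin L × Fin L) := fun t => ((blk t).map R.rg).getD ∅
  have hb : ∀ t < n, ∃ b ∈ S, blk t = some b ∧ I' t = I b ∧ rg' t = R.rg b ∧
      Move Ex Pt (I b) (st t) (st (t + 1)) := fun t ht => by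
    obtain ⟨b, hbl, e, hm⟩ := h2 t ht
    exact ⟨b, hS b hbl, e, by simp [I', e], by simp [rg', e], hm⟩
  refine ⟨n, I', ?_, ⟨⟨st, root, fun z => by rw [h0], by rw [h0], fun t ht => ?_, by rw [h1],
    by rw [h1]⟩⟩, fun t ht => ?_, fun p => ?_, ⟨⟨R.loc, rg', R.rp, fun t ht => ?_, R.conn_p,
      fun t ht p hp => ?_, R.mem_p, R.mem_fin, fun z => ?_⟩⟩⟩
  · have := card_filter_blk (S := S) hf (fun _ => True) S fun t ht _ => by
      obtain ⟨b, hbS, e, -⟩ := hb t ht
      exact ⟨b, hbS, e⟩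
    simpa using this
  · obtain ⟨b, -, -, e, -, hm⟩ := hb t ht
    rw [e]; exact hm
  · obtain ⟨b, hbS, -, e, -, -⟩ := hb t ht
    rw [e]; exact R.card_I b hbS
  · refine (card_filter_blk (S := S) hf (fun t => p ∈ I' t) (S.filter fun b => p ∈ I b)
      fun t ht hp => ?_).trans (Nat.mul_le_mul_left _ (R.mult p))
    obtain ⟨b, hbS, e, e', -, -⟩ := hb t ht
    exact ⟨b, Finset.mem_filter.2 ⟨hbS, e' ▸ hp⟩, e⟩
  · obtain ⟨b, hbS, -, -, e, -⟩ := hb t ht
    rw [e]; exact R.conn_g b hbS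
  · obtain ⟨b, hbS, -, e', e, -⟩ := hb t ht
    rw [e]; exact R.mem_g b hbS p (e' ▸ hp)
  · refine Nat.add_le_add ((card_filter_blk (S := S) hf (fun t => z ∈ rg' t)
      (S.filter fun b => z ∈ R.rg b) fun t ht hp => ?_).trans
        (Nat.mul_le_mul_left _ (R.cong_g z))) (R.cong_p z)
    obtain ⟨b, hbS, e, -, e', -⟩ := hb t ht
    exact ⟨b, Finset.mem_filter.2 ⟨hbS, e' ▸ hp⟩, e⟩

end Crest.Agent.N336.P.Geo
end

-- ▼ part N336/P/Geo/Asm
section

/-!
# Row 336, painter schedule: assembly of `GeoStmt` (helper32)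
-/

set_option autoImplicit false

namespace Crest.Agent.N336.P.Geo

open Crest.MathPhysics.LatticeSpin

/-- Cones are monotone in the constant. -/
def coneMono {K K' ℓ : ℕ} (h : K ≤ K') (c : Cone K ℓ) : Cone K' ℓ where
  Z := c.Z
  gam := c.gam
  f := c.f
  card := c.card.trans h
  gam_le := c.gam_le
  gam_eq := c.gam_eq
  lip z w h1 h2 := by
    have := c.lip z w h1 h2
    omega
  lev r k T hT := (c.lev r k T hT).trans (Nat.mul_le_mul_right _ h)

/-- Plans are monotone in the constants. -/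
def planMono {Λ Pa : Type} [Fintype Λ] [DecidableEq Λ] [DecidableEq Pa]
    {Ex Pt : Finset Λ → Finset Λ → Prop} {n ℓ ℓ' d d' : ℕ} {fin : Λ → Pa} {I : ℕ → Finset Pa}
    (hℓ : ℓ ≤ ℓ') (hd : d ≤ d') (p : Plan Λ Pa Ex Pt n ℓ d fin I) :
    Plan Λ Pa Ex Pt n ℓ' d' fin I where
  st := p.st
  root := p.root
  col₀ := p.col₀
  H₀ := p.H₀
  move t ht := by
    rcases p.move t ht with h | ⟨old, new, pr, pr', cells, h1, h2, h3, h4, h5⟩ | ⟨v, hv, h1, h2⟩
    · exact Or.inl h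
    · exact Or.inr (Or.inl ⟨old, new, pr, pr', cells, h1, h2, h3, h4.trans hℓ, h5⟩)
    · exact Or.inr (Or.inr ⟨v, hv, h1.trans hd, h2⟩)
  colₙ := p.colₙ
  Hₙ := p.Hₙ

/-- Routes are monotone in the congestion. -/
def routesMono {L : ℕ} {Pa : Type} [Fintype Pa] [DecidableEq Pa] {n κ κ' : ℕ}
    {fin : Fin L × Fin L → Pa} {I : ℕ → Finset Pa} (h : κ ≤ κ') (r : Routes L Pa n κ fin I) :
    Routes L Pa n κ' fin I where
  loc := r.loc
  rg := r.rg
  rp := r.rp
  conn_g := r.conn_g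
  conn_p := r.conn_p
  mem_g := r.mem_g
  mem_p := r.mem_p
  mem_fin := r.mem_fin
  cong z := (r.cong z).trans h

theorem ex_top {L : ℕ} (hL : 8192 ≤ L) : ∃ top, 32 * del top ≤ L ∧ L < 64 * del top := by
  have hne : L / 8192 ≠ 0 := by omega
  have h1 := Nat.pow_log_le_self 2 hne
  have h2 := Nat.lt_pow_succ_log_self (b := 2) (by norm_num) (L / 8192)
  refine ⟨Nat.log 2 (L / 8192), ?_⟩
  rw [pow_succ] at h2
  unfold del
  generalize 2 ^ Nat.log 2 (L / 8192) = x at h1 h2 ⊢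
  rw [Nat.le_div_iff_mul_le (by norm_num)] at h1
  rw [Nat.div_lt_iff_lt_mul (by norm_num)] at h2
  constructor <;> linarith

theorem geo (hs : SmallStmt) (hm : MacroStmt) (hr : RoutesStmt) : GeoStmt := by
  refine ⟨K0 * 20000, by unfold K0; norm_num, fun L i₁ Ex Pt hL hPt hEx => ?_⟩
  have hK : K0 ≤ K0 * 20000 := Nat.le_mul_of_pos_right _ (by norm_num)
  have hL1 : 8192 ≤ L := by
    have : 1 ≤ 2 ^ i₁ := Nat.one_le_two_pow
    have h2 : K0 * 20000 * 1 ≤ L := (Nat.mul_le_mul_left _ this).trans hL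
    unfold K0 at h2
    omega
  obtain ⟨top, ht1, ht2⟩ := ex_top hL1
  have hAt : ∀ i ≤ i₁, PtAt (gpos L) Pt (2 ^ i) := fun i hi w x y hw => hPt i w x y hi hw
  obtain ⟨l, fin, g1, g2, g3, g4⟩ := sched L top i₁ Ex Pt ht1 ht2 fun i _ => by
    rcases le_or_gt i i₁ with h | h
    · rw [min_eq_left h]
      exact hs _ _ (gpos L) Ex Pt (2 ^ i) Nat.one_le_two_pow (hAt i h)
    · rw [min_eq_right h.le]
      obtain ⟨k, rfl⟩ := Nat.exists_eq_add_of_lt h
      have e : del (i₁ + k + 1) = 512 * 2 ^ i₁ * 2 ^ k := by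
        unfold del
        ring
      rw [e]
      exact hm _ _ (gpos L) Ex Pt (2 ^ i₁) (2 ^ k) Nat.one_le_two_pow Nat.one_le_two_pow
        (hAt i₁ le_rfl) fun cn => hEx _ (coneMono hK cn) (by omega)
  obtain ⟨r1, r2, r3⟩ := hr L top fin ht1 ht2 g3
  obtain ⟨n, I, b1, ⟨b2⟩, b3, b4, ⟨b5⟩⟩ :=
    blocks L (Pty L) Blk (BS L top) 10000 Ex Pt fin (NbI L top) l none g1 g2 g4 r1
  refine ⟨Pty L, inferInstance, inferInstance, n, fin, I, ?_, ⟨planMono hK hK b2⟩,
    fun t ht => ⟨(b3 t ht).1, (b3 t ht).2.trans (by unfold K0; norm_num)⟩,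
    fun p => (b4 p).trans (by unfold K0; norm_num), fun p => (r3 p).trans hK,
    ⟨routesMono (by unfold K0; norm_num) b5⟩⟩
  calc n ≤ K0 * (BS L top).card := b1
    _ ≤ K0 * (16 * L ^ 3) := Nat.mul_le_mul_left _ r2
    _ ≤ K0 * 20000 * L ^ 3 := by
      rw [mul_assoc]
      exact Nat.mul_le_mul_left _ (Nat.mul_le_mul_right _ (by norm_num))

end Crest.Agent.N336.P.Geo
end

-- ▼ part N336/P/Geo/Macro
section

/-!
# Row 336, painter schedule: the macro regime `macro_ : RectStmt → MacroStmt` (helper62)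
-/

set_option autoImplicit false
set_option linter.unusedSectionVars false

noncomputable section

namespace Crest.Agent.N336.P.Geo

open Crest.MathPhysics.LatticeSpin

namespace Mac

open scoped Classical

variable {Λ Cl : Type} [Fintype Λ] [DecidableEq Λ] [DecidableEq Cl]

/-- colouring after the births at the edges `E` and the local paints at the vertices `T` -/
def colr (pos : Λ → ℤ × ℤ) (δ η : ℕ) (κ : ℤ × ℤ → Cl) (Q : Rect) (c : Cl) (E : Finset Ed)
    (T : Finset (ℤ × ℤ)) (z : Λ) : Cl :=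
  if (∃ e ∈ E, LL δ η Q e (pos z)) ∨
    ∃ V ∈ T, (Q.sc δ).mem (pos z) ∧ nr (vt δ V) (128 * η) (pos z) then c else κ (cl δ (pos z))

/-- the new holes of the local paint at `V` -/
def nw (pos : Λ → ℤ × ℤ) (δ η : ℕ) (κ : ℤ × ℤ → Cl) (Q : Rect) (c : Cl) (V : ℤ × ℤ) :
    Finset (HD Cl) :=
  ({⟨vt δ V, η, c⟩, ⟨pp δ η Q V, η, c⟩} : Finset (HD Cl)).filter
    fun h => ¬ Two (paint κ Q c) V ∧ (h.hole pos).O.Nonempty

/-- the intermediate states -/
def stt (pos : Λ → ℤ × ℤ) (δ η : ℕ) (κ : ℤ × ℤ → Cl) (Q : Rect) (c : Cl) (HA : Finset (HD Cl))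
    (E : Finset Ed) (T : Finset (ℤ × ℤ)) : CSt Λ Cl :=
  ⟨colr pos δ η κ Q c E T, (HA ∪ T.biUnion (nw pos δ η κ Q c)).image (HD.hole pos)⟩

variable {pos : Λ → ℤ × ℤ} {δ η : ℕ} {New : Cl → Prop} {κ : ℤ × ℤ → Cl} {HA : Finset (HD Cl)}
  {Q : Rect} {c : Cl} {I : Finset Cl} {Ex Pt : Finset Λ → Finset Λ → Prop}

theorem mem_nw {V : ℤ × ℤ} {h : HD Cl} : h ∈ nw pos δ η κ Q c V ↔
    (h = ⟨vt δ V, η, c⟩ ∨ h = ⟨pp δ η Q V, η, c⟩) ∧ ¬ Two (paint κ Q c) V ∧
      (h.hole pos).O.Nonempty := by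
  simp only [nw, Finset.mem_filter, Finset.mem_insert, Finset.mem_singleton]

theorem nw_nr {V : ℤ × ℤ} {h : HD Cl} (hh : h ∈ nw pos δ η κ Q c V) {z : ℤ × ℤ} {r : ℤ}
    (hz : nr h.v r z) : nr (vt δ V) (r + 128 * η) z ∧ h.e = η := by
  rcases (mem_nw.1 hh).1 with rfl | rfl
  · exact ⟨hz.mono (by omega), rfl⟩
  · exact ⟨pp_nr hz, rfl⟩

theorem mem_A {K l : ℕ} (cn : Cone K l) {z : Λ} :
    z ∈ cn.A pos ↔ max (cn.gam (pos z)) l ≤ cn.f (pos z) := by simp [Cone.A]

theorem mem_F {K l : ℕ} (cn : Cone K l) {z : Λ} : z ∈ cn.F pos ↔ cn.f (pos z) ≤ 0 := by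
  simp [Cone.F]

theorem disj_AF {K l : ℕ} (hl : 1 ≤ l) (cn : Cone K l) : Disjoint (cn.A pos) (cn.F pos) := by
  rw [Finset.disjoint_left]
  intro z h1 h2
  rw [mem_A] at h1
  rw [mem_F] at h2
  omega

/-- birth of a lens -/
theorem birth (C : Ctx δ η Q) (hEx : ∀ cn : Cone K0 (128 * η), Ex (cn.A pos) (cn.F pos))
    (r : RD pos δ η New κ HA) (hg : Gen κ Q) (hc : c ∈ I)
    (hI : ∀ X, Q.ext.mem X → κ X ≠ c ∧ ((∃ z, sd (cl δ (pos z)) X ≤ 1) → κ X ∈ I))
    {E : Finset Ed} (hE : E ⊆ edges Q) {e : Ed} (he : e ∈ edges Q) (hn : e ∉ E) :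
    ExchMove Ex I (stt pos δ η κ Q c HA E ∅) (stt pos δ η κ Q c HA (insert e E) ∅) := by
  obtain ⟨cn, hcn⟩ := exists_lens C e
  obtain ⟨n, hn'⟩ := wide_col C hg (mem_edges.1 he)
  have hF : ∀ v ∈ (stt pos δ η κ Q c HA E ∅).H, v.O ⊆ cn.F pos := by
    intro v hv z hz
    simp only [stt, Finset.biUnion_empty, Finset.union_empty] at hv
    obtain ⟨h, hh, rfl⟩ := Finset.mem_image.1 hv
    obtain ⟨-, V, e', -⟩ := r.h1 h hh
    simp only [HD.hole, mem_bx', e'] at hz
    rw [mem_F]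
    by_contra h0
    exact ww_vert (by have := r.rad hh; omega) ((hcn _).2 (not_le.1 h0)) hz
  refine ⟨cn.A pos, cn.F pos, if ∃ z, 0 < cn.f (pos z) then n else c, c,
    disj_AF (by have := C.eta; omega) cn, hEx cn, ?_, hc, fun z _ h2 => ?_,
    fun v hv => Or.inr (hF v hv), fun z => ?_, ?_⟩
  · split_ifs with h
    · obtain ⟨z, hz⟩ := h
      obtain ⟨a, b⟩ := hn' _ (ww_wide C ((hcn _).2 hz))
      exact a ▸ (hI _ b).2 ⟨z, sd_self_le _⟩
    · exact hc
  · rw [mem_F, not_le] at h2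
    have w := (hcn _).2 h2
    rw [if_pos ⟨z, h2⟩, ← (hn' _ (ww_wide C w)).1]
    refine if_neg ?_
    rintro (⟨e', he', hl⟩ | ⟨V, hV, -⟩)
    · exact ww_ll C (mem_edges.1 he) (mem_edges.1 (hE he')) (fun h => hn (h ▸ he')) w hl
    · simp at hV
  · simp only [stt, colr, mem_A, (hcn _).1, Finset.mem_insert, exists_eq_or_imp]
    by_cases h : LL δ η Q e (pos z) <;> simp [h]
  · exact (Finset.filter_true_of_mem hF).symm

/-- local paint at a boundary vertex -/
theorem localPaint (rect : RectStmt) (C : Ctx δ η Q) {m : ℕ} (hm : δ = η * m) (hPt : PtAt pos Pt η)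
    (r : RD pos δ η New κ HA) (hg : Gen κ Q) (hc : c ∈ I)
    (hI : ∀ X, Q.ext.mem X → κ X ≠ c ∧ ((∃ z, sd (cl δ (pos z)) X ≤ 1) → κ X ∈ I))
    {T : Finset (ℤ × ℤ)} {V : ℤ × ℤ} (hV : V ∈ bd Q) (hn : V ∉ T) :
    PaintMove Pt K0 I (stt pos δ η κ Q c HA (edges Q) T)
      (stt pos δ η κ Q c HA (edges Q) (insert V T)) := by
  have hδ := C.pos
  have hη := C.eta
  have hd := C.del
  have hX := C.X
  have hY := C.Y
  obtain ⟨hV1, hV2⟩ := mem_bd.1 hV
  obtain ⟨pr, hpr⟩ := exists_pair κ hδ c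
  obtain ⟨a1, a2, a3⟩ := hpr V (hg.two hV1 hV2)
  have e0 : ∀ a : ℤ, (η : ℤ) * (m * a) = δ * a := fun a => by rw [hm]; push_cast; ring
  have e1 : ∀ a a' : ℤ, (η : ℤ) * max (m * a) (m * a' - 128) = max (δ * a) (δ * a' - 128 * η) :=
    fun a a' => by rw [mul_max_of_nonneg _ _ (Int.natCast_nonneg η), mul_sub, e0, e0, mul_comm _ 128]
  have e2 : ∀ a a' : ℤ, (η : ℤ) * min (m * a) (m * a' + 128) = min (δ * a) (δ * a' + 128 * η) :=
    fun a a' => by rw [mul_min_of_nonneg _ _ (Int.natCast_nonneg η), mul_add, e0, e0, mul_comm _ 128]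
  have v1 := mul_le δ hV1.1
  have v2 := mul_le δ hV1.2.1
  have v3 := mul_le δ hV1.2.2.1
  have v4 := mul_le δ hV1.2.2.2
  -- colours near `V`
  have hcol : ∀ z, nr (vt δ V) (138 * η) (pos z) →
      (stt pos δ η κ Q c HA (edges Q) T).col z =
        if ∃ e ∈ edges Q, LL δ η Q e (pos z) then c else κ (cl δ (pos z)) := by
    intro z hz
    have : ¬ ∃ V' ∈ T, (Q.sc δ).mem (pos z) ∧ nr (vt δ V') (128 * η) (pos z) := by
      rintro ⟨V', h1, -, h2⟩
      exact hn (vert_eq (by omega) hz h2 ▸ h1)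
    simp only [stt, colr, this, or_false]
  have hq : ∀ z, nr (vt δ V) (138 * η) (pos z) → Quad V (cl δ (pos z)) := fun z hz =>
    quad_of_nr hδ (by omega) hz
  refine rect Λ Cl pos Pt η ⟨max (m * Q.x0) (m * V.1 - 128), min (m * Q.x1) (m * V.1 + 128),
    max (m * Q.y0) (m * V.2 - 128), min (m * Q.y1) (m * V.2 + 128)⟩ c I _ _ ∅
    (nw pos δ η κ Q c V) (fun _ => c) (fun _ => (c, c)) (fun _ => pr (vt δ V)) hη hPt
    (by simp only; omega) (by simp only; omega) (by simp)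
    ((Finset.card_filter_le _ _).trans (Finset.card_le_two.trans (by norm_num)))
    ?_ ?_ (by simp) ?_ hc ?_ ?_ (by simp) (by simp) ?_ ?_ ?_
  · intro z hz
    simp only [e1, e2, Rect.mem] at hz
    refine if_pos (Or.inr ⟨V, Finset.mem_insert_self _ _, ?_, ?_⟩)
    · simp only [Rect.mem, Rect.sc]; omega
    · simp only [nr, vt]; omega
  · intro z hz
    simp only [e1, e2, Rect.mem] at hz
    have : ¬ ((Q.sc δ).mem (pos z) ∧ nr (vt δ V) (128 * η) (pos z)) := by
      simp only [Rect.mem, Rect.sc, nr, vt]; omega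
    simp only [stt, colr, Finset.mem_insert, exists_eq_or_imp, this, false_or]
  · simp only [stt, Finset.image_empty, Finset.sdiff_empty, Finset.biUnion_insert,
      ← Finset.image_union]
    congr 1
    ac_rfl
  · intro z hz
    simp only [e1, e2, Rect.mem] at hz
    have hz' : nr (vt δ V) (138 * η) (pos z) := by simp only [nr, vt]; omega
    rw [hcol z hz']
    split_ifs
    · exact hc
    · exact (hI _ (hV1.mem (hq z hz'))).2 ⟨z, sd_self_le _⟩
  · -- (R1)
    intro x y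
    by_cases h : ∃ z₀ ∈ sq pos x y (6 * η), ∃ e ∈ edges Q, LL δ η Q e (pos z₀)
    · obtain ⟨z₀, hz₀, e, he, hl⟩ := h
      obtain ⟨n, hn'⟩ := wide_col C hg (mem_edges.1 he)
      refine ⟨(c, n), fun z hz hzn _ => ?_⟩
      simp only [e1, e2, Rect.mem] at hzn
      rw [hcol z (by simp only [nr, vt]; omega)]
      split_ifs
      · exact Or.inl rfl
      · rw [mem_sq] at hz hz₀
        exact Or.inr (hn' _ (ll_wide C hl (by rw [sd_lt_iff]; omega))).1
    · refine ⟨pr (vt δ V), fun z hz hzn _ => ?_⟩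
      simp only [e1, e2, Rect.mem] at hzn
      have hz' : nr (vt δ V) (138 * η) (pos z) := by simp only [nr, vt]; omega
      rw [hcol z hz', if_neg fun h' => h ⟨z, hz, h'⟩]
      exact a3 _ (hq z hz')
  · -- (R3)
    intro w hw
    obtain ⟨hw1, hw2, ⟨z, hz⟩⟩ := mem_nw.1 hw
    have hnc := nc_of_not_two C hg (fun X hX => (hI X hX).1) hV hw2
    have hz' := nw_nr hw (mem_bx'.1 hz)
    have hr : 7 * (w.e : ℤ) + 128 * η ≤ δ := by rw [hz'.2]; omega
    refine ⟨hz'.2, ⟨z, hz⟩, (occ_mem hδ hI hV1 hr hz'.1 a1).1, (occ_mem hδ hI hV1 hr hz'.1 a2).1,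
      by rcases hw1 with rfl | rfl <;> exact hc, fun z hz => ?_, by simp, fun w' hw' hne => ?_⟩
    · rw [mem_bx'] at hz
      have hz' : nr (vt δ V) (138 * η) (pos z) := (nw_nr hw hz).1.mono (by omega)
      rw [hcol z hz', if_neg]
      · exact a3 _ (hq z hz')
      · rintro ⟨e, -, hl⟩
        rcases hw1 with rfl | rfl
        · exact ww_vert (by omega) (ll_ww C hl) hz
        · exact ll_pp C hnc hl hz
    · have cs := hnc.cases C
      rw [Finset.disjoint_left]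
      intro z h1 h2
      rcases hw1 with rfl | rfl <;> rcases (mem_nw.1 hw').1 with rfl | rfl
      · exact hne rfl
      · simp only [HD.hole, mem_bx', nr, vt] at h1 h2; omega
      · simp only [HD.hole, mem_bx', nr, vt] at h1 h2; omega
      · exact hne rfl
  · intro z z' z'' n n' n'' hz d1 d2 d3 hne c' c''
    simp only [e1, e2, Rect.mem] at n n' n'' hz
    rw [sd_lt_iff] at d1 d2 d3
    have m' : nr (vt δ V) (138 * η) (pos z') := by simp only [nr, vt]; omega
    have m'' : nr (vt δ V) (138 * η) (pos z'') := by simp only [nr, vt]; omega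
    rw [hcol z' m'] at hne c'
    rw [hcol z'' m''] at hne c''
    have l' : ¬ ∃ e ∈ edges Q, LL δ η Q e (pos z') := fun h => c' (if_pos h)
    have l'' : ¬ ∃ e ∈ edges Q, LL δ η Q e (pos z'') := fun h => c'' (if_pos h)
    rw [if_neg l', if_neg l''] at hne
    obtain ⟨h2, hst⟩ := hg.stem (fun X hX => (hI X hX).1) (by have := C.hx; omega)
      (by have := C.hy; omega) hV1 hV2 (hq _ m') (hq _ m'') hne
    have cs := (nc_of_not_two C hg (fun X hX => (hI X hX).1) hV h2).cases C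
    have hz6 : nr (vt δ V) (6 * η) (pos z) ∨ nr (pp δ η Q V) (6 * η) (pos z) := by
      have t1 := mul_tri δ V.1 Q.x0
      have t2 := mul_tri δ V.1 Q.x1
      have t3 := mul_tri δ V.2 Q.y0
      have t4 := mul_tri δ V.2 Q.y1
      rcases hst with ⟨a, b, c, d⟩ | ⟨a, b, c, d⟩
      · have := cross_row hδ (hq _ m') (hq _ m'') d
        simp only [nr, vt]; omega
      · have := cross_col hδ (hq _ m') (hq _ m'') d
        simp only [nr, vt]; omega
    rcases hz6 with h | h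
    · exact ⟨_, mem_nw.2 ⟨Or.inl rfl, h2, z, mem_bx'.2 (h.mono (by simp only; omega))⟩,
        mem_bx'.2 h⟩
    · exact ⟨_, mem_nw.2 ⟨Or.inr rfl, h2, z, mem_bx'.2 (h.mono (by simp only; omega))⟩,
        mem_bx'.2 h⟩
  · -- (R4)
    intro v hv
    have far : ∀ z ∈ v.O, ¬ nr (vt δ V) (135 * η) (pos z) := by
      simp only [stt, Finset.image_empty, Finset.sdiff_empty] at hv
      obtain ⟨h, hh, rfl⟩ := Finset.mem_image.1 hv
      intro z hz hz'
      simp only [HD.hole, mem_bx'] at hz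
      rcases Finset.mem_union.1 hh with hh | hh
      · obtain ⟨-, V', e', h3, -⟩ := r.h1 h hh
        rw [e'] at hz
        obtain rfl := vert_eq (by have := r.rad hh; omega) hz hz'
        exact h3.1 (hg.two hV1 hV2)
      · obtain ⟨V', hV', hh⟩ := Finset.mem_biUnion.1 hh
        obtain ⟨b1, b2⟩ := nw_nr hh hz
        obtain rfl := vert_eq (by omega) b1 hz'
        exact hn hV'
    refine ⟨fun z hz hzn => far z hz ?_, fun w hw => ?_⟩
    · simp only [e1, e2, Rect.mem] at hzn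
      simp only [nr, vt]; omega
    · rw [Finset.disjoint_left]
      intro z h1 h2
      obtain ⟨b1, b2⟩ := nw_nr hw (mem_bx'.1 h2)
      exact far z h1 (b1.mono (by omega))

/-- the death move -/
theorem death (C : Ctx δ η Q) (hx : Q.x1 ≤ Q.x0 + 40) (hy : Q.y1 ≤ Q.y0 + 40)
    (hEx : ∀ cn : Cone K0 (128 * η), Ex (cn.A pos) (cn.F pos))
    (r : RD pos δ η New κ HA) (hg : Gen κ Q) (hc : c ∈ I) (hI : ∀ X, Q.ext.mem X → κ X ≠ c) :
    ExchMove Ex I (stt pos δ η κ Q c HA (edges Q) (bd Q))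
      ⟨fun z => paint κ Q c (cl δ (pos z)),
        (HA \ olds δ Q HA ∪ news pos δ η κ Q c).image (HD.hole pos)⟩ := by
  have hδ := C.pos
  have hη := C.eta
  have hd := C.del
  have hX := C.X
  have hY := C.Y
  obtain ⟨cn, hZ, hf⟩ := death_cone (128 * η) (Q.sc δ) ((bd Q).image (vt δ))
    ⟨vt δ (Q.x0, Q.y0), Finset.mem_image_of_mem _ (mem_bd.2 (by
      have := C.hx; have := C.hy; simp only [Cls, Ins]; omega))⟩
    (Finset.card_image_le.trans ((Finset.card_filter_le _ _).trans (card_clsV hx hy)))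
  have cast : ((128 * η : ℕ) : ℤ) = 128 * η := by push_cast; ring
  have gle : ∀ z, ∀ V ∈ bd Q, cn.gam z ≤ sd z (vt δ V) := fun z V hV =>
    cn.gam_le z _ (hZ ▸ Finset.mem_image_of_mem _ hV)
  have hA : ∀ z, z ∈ cn.A pos ↔
      2 * max (cn.gam (pos z)) (128 * η) ≤ 10 * (dep (Q.sc δ) (pos z) + 1) := fun z => by
    rw [mem_A, hf, cast]; omega
  have hF : ∀ z, z ∈ cn.F pos ↔
      10 * (dep (Q.sc δ) (pos z) + 1) ≤ max (cn.gam (pos z)) (128 * η) := fun z => by
    rw [mem_F, hf, cast]; omega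
  have hdep : ∀ z, (Q.sc δ).mem z ↔ 0 ≤ dep (Q.sc δ) z := fun z => by
    simp only [Rect.mem, dep]; omega
  have hcov : ∀ z, (Q.sc δ).mem (pos z) → z ∉ cn.A pos →
      (stt pos δ η κ Q c HA (edges Q) (bd Q)).col z = c := by
    intro z hz hn
    rw [hA, not_le] at hn
    refine if_pos ?_
    by_cases hb : 128 * η ≤ cn.gam (pos z)
    · exact Or.inl (cover C hz (gle _) hb (by omega))
    · obtain ⟨p, hp, e⟩ := cn.gam_eq (pos z)
      rw [hZ] at hp
      obtain ⟨V, hV, rfl⟩ := Finset.mem_image.1 hp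
      refine Or.inr ⟨V, hV, hz, ?_⟩
      have := sd_lt_iff.1 (show sd (pos z) (vt δ V) < 128 * η by omega)
      unfold nr; omega
  -- the four kinds of holes
  have k1 : ∀ h ∈ HA, h ∉ olds δ Q HA → (h.hole pos).O ⊆ cn.F pos := by
    intro h hh ho z hz
    obtain ⟨V, e, hV⟩ := r.out hg hh ho
    have := r.rad hh
    have t1 := mul_tri δ V.1 Q.x0
    have t2 := mul_tri δ V.1 Q.x1
    have t3 := mul_tri δ V.2 Q.y0
    have t4 := mul_tri δ V.2 Q.y1
    simp only [HD.hole, mem_bx', e, nr, vt] at hz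
    rw [hF]
    simp only [dep, Rect.sc, Cls] at hV ⊢
    omega
  have k2 : ∀ h ∈ olds δ Q HA, (h.hole pos).O ⊆ cn.A pos := by
    intro h ho z hz
    obtain ⟨hh, V, hV, e⟩ := mem_olds.1 ho
    have := r.rad hh
    have t1 := mul_step δ hV.1
    have t2 := mul_step δ hV.2.1
    have t3 := mul_step δ hV.2.2.1
    have t4 := mul_step δ hV.2.2.2
    simp only [HD.hole, mem_bx', e, nr, vt] at hz
    have hd' : δ - 14 * η ≤ dep (Q.sc δ) (pos z) + 1 := by simp only [dep, Rect.sc]; omega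
    obtain ⟨V', hV', hs⟩ := exists_bd C ((hdep (pos z)).2 (by omega))
    have := gle (pos z) V' hV'
    rw [hA]
    omega
  have k3 : ∀ V ∈ bd Q, ((⟨vt δ V, η, c⟩ : HD Cl).hole pos).O ⊆ cn.F pos := by
    intro V hV z hz
    have t1 := mul_tri δ V.1 Q.x0
    have t2 := mul_tri δ V.1 Q.x1
    have t3 := mul_tri δ V.2 Q.y0
    have t4 := mul_tri δ V.2 Q.y1
    simp only [HD.hole, mem_bx', nr, vt] at hz
    rw [hF]
    simp only [dep, Rect.sc, mem_bd, Cls, Ins] at hV ⊢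
    omega
  have k4 : ∀ V ∈ bd Q, ¬ Two (paint κ Q c) V →
      ((⟨pp δ η Q V, η, c⟩ : HD Cl).hole pos).O ⊆ cn.A pos := by
    intro V hV h2 z hz
    have cs := (nc_of_not_two C hg hI hV h2).cases C
    have g := gle (pos z) V hV
    simp only [HD.hole, mem_bx'] at hz
    have g' : sd (pos z) (vt δ V) ≤ 135 * η := by
      have := pp_nr hz
      rw [sd_le_iff]; unfold nr at this; omega
    have hd' : 121 * η ≤ dep (Q.sc δ) (pos z) + 1 := by
      simp only [dep, Rect.sc, nr] at hz ⊢; omega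
    rw [hA]
    omega
  have dAF := disj_AF (pos := pos) (by omega) cn
  have nF : ∀ v : Hole Λ Cl, v.O.Nonempty → v.O ⊆ cn.A pos → ¬ v.O ⊆ cn.F pos :=
    fun v ⟨z, hz⟩ h1 h2 => Finset.disjoint_left.1 dAF (h1 hz) (h2 hz)
  refine ⟨cn.A pos, cn.F pos, c, c, dAF, hEx cn, hc, hc, fun z h1 h2 => hcov z ?_ h1, ?_,
    fun z => ?_, ?_⟩
  · rw [hF] at h2
    rw [hdep]
    omega
  · intro v hv
    obtain ⟨h, hh, rfl⟩ := Finset.mem_image.1 hv
    rcases Finset.mem_union.1 hh with hh | hh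
    · by_cases ho : h ∈ olds δ Q HA
      · exact Or.inl (k2 h ho)
      · exact Or.inr (k1 h hh ho)
    · obtain ⟨V, hV, hh⟩ := Finset.mem_biUnion.1 hh
      obtain ⟨rfl | rfl, h2, -⟩ := mem_nw.1 hh
      · exact Or.inr (k3 V hV)
      · exact Or.inl (k4 V hV h2)
  · show paint κ Q c (cl δ (pos z)) = _
    by_cases hz : (Q.sc δ).mem (pos z)
    · rw [paint, if_pos ((mem_cl hδ Q _).2 hz)]
      split_ifs with h
      · rfl
      · exact (hcov z hz h).symm
    · rw [paint, if_neg fun h => hz ((mem_cl hδ Q _).1 h), if_neg]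
      · refine (if_neg ?_).symm
        rintro (⟨e, he, hl⟩ | ⟨V, -, h, -⟩)
        · exact hz (ll_mem C (mem_edges.1 he) hl)
        · exact hz h
      · rw [hdep] at hz
        rw [hA]
        omega
  · ext v
    simp only [stt, Finset.mem_filter, Finset.mem_image, Finset.mem_union, Finset.mem_sdiff,
      Finset.mem_biUnion]
    constructor
    · rintro ⟨h, ⟨h1, h2⟩ | hh, rfl⟩
      · exact ⟨⟨h, Or.inl h1, rfl⟩, k1 h h1 h2⟩
      · obtain ⟨V, hV, rfl⟩ := Finset.mem_image.1 hh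
        obtain ⟨b1, b2, b3⟩ := mem_newV.1 hV
        have hV' := mem_bd.2 ⟨b1, not_ins_of_not_two b2⟩
        exact ⟨⟨_, Or.inr ⟨V, hV', mem_nw.2 ⟨Or.inl rfl, b2, b3⟩⟩, rfl⟩, k3 V hV'⟩
    · rintro ⟨⟨h, hh | ⟨V, hV, hh⟩, rfl⟩, hF'⟩
      · exact ⟨h, Or.inl ⟨hh, fun ho => nF _ (r.h1 h hh).1 (k2 h ho) hF'⟩, rfl⟩
      · obtain ⟨rfl | rfl, h2, h3⟩ := mem_nw.1 hh
        · exact ⟨_, Or.inr (Finset.mem_image_of_mem _ (mem_newV.2 ⟨(mem_bd.1 hV).1, h2, h3⟩)), rfl⟩
        · exact absurd hF' (nF _ h3 (k4 V hV h2))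

end Mac

open Mac in
theorem macro_ (rect : RectStmt) : MacroStmt := by
  intro Λ Cl _ _ _ pos Ex Pt η j hη hj hPt hEx New κ Q c I s hrep hg hx1 hx2 hy1 hy2 _ hc hI
  obtain ⟨hcol, HA, hH, r⟩ := rep_iff.1 hrep
  have C : Ctx (512 * η * j) η Q := ⟨hη, Nat.le_mul_of_pos_right _ hj, hx1, hy1⟩
  have hm : 512 * η * j = η * (512 * j) := by ring
  generalize 512 * η * j = δ at *
  have hI' : ∀ X, Q.ext.mem X → κ X ≠ c ∧ ((∃ z, sd (cl δ (pos z)) X ≤ 1) → κ X ∈ I) := hI
  have s0 : s = stt pos δ η κ Q c HA ∅ ∅ := by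
    obtain ⟨col, H⟩ := s
    simp only [stt, Finset.biUnion_empty, Finset.union_empty, CSt.mk.injEq]
    exact ⟨funext fun z => by rw [colr, if_neg (by simp)]; exact hcol z, hH⟩
  have S1 := seg_finset (Ex := Ex) (Pt := Pt) (I := I) (edges Q)
    (fun E => stt pos δ η κ Q c HA E ∅) fun E hE e he hn => Or.inl (birth C hEx r hg hc hI' hE he hn)
  have S2 := seg_finset (Ex := Ex) (Pt := Pt) (I := I) (bd Q)
    (fun T => stt pos δ η κ Q c HA (edges Q) T) fun T _ V hV hn =>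
      Or.inr (Or.inl (localPaint rect C hm hPt r hg hc hI' hV hn))
  have S3 := Seg.single (Pt := Pt)
    (Or.inl (death C hx2 hy2 hEx r hg hc fun X hX => (hI' X hX).1))
  refine ⟨_, _, ?_, s0 ▸ (S1.append S2).append S3,
    rep_iff.2 ⟨fun _ => rfl, _, rfl, r.paint C.pos hg⟩⟩
  have := card_edges hx2 hy2
  have : (bd Q).card ≤ 1681 := (Finset.card_filter_le _ _).trans (card_clsV hx2 hy2)
  unfold K0
  omega

end Crest.Agent.N336.P.Geo
end
end

-- ▼ part N336/P/Geo/Routes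

/-!
# Row 336, painter schedule: `routes : RoutesStmt` (helper43)
-/

set_option autoImplicit false

namespace Crest.Agent.N336.P.Geo

open Crest.MathPhysics.LatticeSpin

namespace Rou

section conn

variable {L : ℕ}

theorem reach_col (S : Set (Fin L × Fin L)) (x : Fin L) (y y' : Fin L)
    (h : ∀ t : Fin L, min y y' ≤ t → t ≤ max y y' → (x, t) ∈ S) (hy : (x, y) ∈ S)
    (hy' : (x, y') ∈ S) : ((gridGraph L).induce S).Reachable ⟨_, hy⟩ ⟨_, hy'⟩ := by
  wlog hle : y ≤ y' generalizing y y'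
  · refine (this y' y (fun t h1 h2 => h t ?_ ?_) hy' hy (le_of_not_ge hle)).symm
    · rwa [min_comm]
    · rwa [max_comm]
  rw [min_eq_left hle, max_eq_right hle] at h
  obtain ⟨k, hk⟩ := y'
  have hle' : y.val ≤ k := hle
  induction k, hle' using Nat.le_induction with
  | base => rfl
  | succ k hyk ih =>
    have hk' : k < L := by omega
    have hm : (x, (⟨k, hk'⟩ : Fin L)) ∈ S := h _ hyk (Nat.le_succ k)
    refine (ih hk' (fun t h1 h2 => h t h1 (le_trans h2 (Nat.le_succ k))) hm hyk).trans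
      (SimpleGraph.Adj.reachable ?_)
    simp only [SimpleGraph.comap_adj, Function.Embedding.coe_subtype, gridGraph,
      SimpleGraph.fromRel_adj]
    refine ⟨by simp [Fin.ext_iff], Or.inl ?_⟩
    simp

theorem reach_row (S : Set (Fin L × Fin L)) (y : Fin L) (x x' : Fin L)
    (h : ∀ t : Fin L, min x x' ≤ t → t ≤ max x x' → (t, y) ∈ S) (hx : (x, y) ∈ S)
    (hx' : (x', y) ∈ S) : ((gridGraph L).induce S).Reachable ⟨_, hx⟩ ⟨_, hx'⟩ := by
  wlog hle : x ≤ x' generalizing x x'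
  · refine (this x' x (fun t h1 h2 => h t ?_ ?_) hx' hx (le_of_not_ge hle)).symm
    · rwa [min_comm]
    · rwa [max_comm]
  rw [min_eq_left hle, max_eq_right hle] at h
  obtain ⟨k, hk⟩ := x'
  have hle' : x.val ≤ k := hle
  induction k, hle' using Nat.le_induction with
  | base => rfl
  | succ k hyk ih =>
    have hk' : k < L := by omega
    have hm : ((⟨k, hk'⟩ : Fin L), y) ∈ S := h _ hyk (Nat.le_succ k)
    refine (ih hk' (fun t h1 h2 => h t h1 (le_trans h2 (Nat.le_succ k))) hm hyk).trans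
      (SimpleGraph.Adj.reachable ?_)
    simp only [SimpleGraph.comap_adj, Function.Embedding.coe_subtype, gridGraph,
      SimpleGraph.fromRel_adj]
    refine ⟨by simp [Fin.ext_iff], Or.inl ?_⟩
    simp

/-- The window of index `a` for the unit `u`. -/
def Win (u a x : ℕ) : Prop := a ≤ x / u + 8 ∧ x / u ≤ a + 8

theorem Win.btw {u a : ℕ} {x x' t : Fin L} (h : Win u a x) (h' : Win u a x') (h1 : min x x' ≤ t)
    (h2 : t ≤ max x x') : Win u a t := by
  rcases le_total x x' with hle | hle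
  · rw [min_eq_left hle] at h1
    rw [max_eq_right hle] at h2
    have e1 : x.val / u ≤ t.val / u := Nat.div_le_div_right h1
    have e2 : t.val / u ≤ x'.val / u := Nat.div_le_div_right h2
    exact ⟨by have := h.1; omega, by have := h'.2; omega⟩
  · rw [min_eq_right hle] at h1
    rw [max_eq_left hle] at h2
    have e1 : x'.val / u ≤ t.val / u := Nat.div_le_div_right h1
    have e2 : t.val / u ≤ x.val / u := Nat.div_le_div_right h2
    exact ⟨by have := h'.1; omega, by have := h.2; omega⟩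

open Classical in
/-- The mesh `M` inside a window. -/
noncomputable def mesh (L u a b : ℕ) (M : ℕ → Prop) : Finset (Fin L × Fin L) :=
  Finset.univ.filter fun z => Win u a z.1 ∧ Win u b z.2 ∧ (M z.1 ∨ M z.2)

theorem mem_mesh {u a b : ℕ} {M : ℕ → Prop} {z : Fin L × Fin L} :
    z ∈ mesh L u a b M ↔ Win u a z.1 ∧ Win u b z.2 ∧ (M z.1 ∨ M z.2) := by
  simp [mesh]

theorem mesh_conn {u a b : ℕ} {M : ℕ → Prop} (x y : Fin L) (hx : Win u a x) (hy : Win u b y)
    (hx' : M x) (hy' : M y) :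
    ((gridGraph L).induce (mesh L u a b M : Set (Fin L × Fin L))).Connected := by
  have h0 : (x, y) ∈ (mesh L u a b M : Set (Fin L × Fin L)) :=
    Finset.mem_coe.2 (mem_mesh.2 ⟨hx, hy, Or.inl hx'⟩)
  have key : ∀ z : (mesh L u a b M : Set (Fin L × Fin L)),
      ((gridGraph L).induce (mesh L u a b M : Set (Fin L × Fin L))).Reachable z ⟨_, h0⟩ := by
    rintro ⟨⟨s, t⟩, hz⟩
    obtain ⟨h1, h2, h3 | h3⟩ := mem_mesh.1 (Finset.mem_coe.1 hz)
    · have hm : (s, y) ∈ (mesh L u a b M : Set (Fin L × Fin L)) :=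
        Finset.mem_coe.2 (mem_mesh.2 ⟨h1, hy, Or.inl h3⟩)
      exact (reach_col _ s t y (fun r e1 e2 => Finset.mem_coe.2 (mem_mesh.2
        ⟨h1, Win.btw h2 hy e1 e2, Or.inl h3⟩)) hz hm).trans
        (reach_row _ y s x (fun r e1 e2 => Finset.mem_coe.2 (mem_mesh.2
        ⟨Win.btw h1 hx e1 e2, hy, Or.inr hy'⟩)) hm h0)
    · have hm : (x, t) ∈ (mesh L u a b M : Set (Fin L × Fin L)) :=
        Finset.mem_coe.2 (mem_mesh.2 ⟨hx, h2, Or.inr h3⟩)
      exact (reach_row _ t s x (fun r e1 e2 => Finset.mem_coe.2 (mem_mesh.2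
        ⟨Win.btw h1 hx e1 e2, h2, Or.inr h3⟩)) hz hm).trans
        (reach_col _ x t y (fun r e1 e2 => Finset.mem_coe.2 (mem_mesh.2
        ⟨hx, Win.btw h2 hy e1 e2, Or.inl hx'⟩)) hm h0)
  have : Nonempty (mesh L u a b M : Set (Fin L × Fin L)) := ⟨⟨_, h0⟩⟩
  exact ⟨fun z z' => (key z).trans (key z').symm⟩

end conn

/-- The unit of generation `i`. -/
def un (i : ℕ) : ℕ := 32 * del i

theorem un_eq (i : ℕ) : un i = 8192 * 2 ^ i := by unfold un del; ring

theorem un_pos (i : ℕ) : 0 < un i := by rw [un_eq]; positivity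

theorem un_succ (i : ℕ) : un (i + 1) = un i * 2 := by rw [un_eq, un_eq]; ring

theorem un_mono {i j : ℕ} (h : i ≤ j) : un i ≤ un j := by
  rw [un_eq, un_eq]
  exact Nat.mul_le_mul_left _ (Nat.pow_le_pow_right (by norm_num) h)

/-- Clamped index. -/
def mu (L i a : ℕ) : ℕ := min a (L / un i - 1)

/-- Coordinate of the location of index `a` in generation `i`. -/
def ps (L i a : ℕ) : ℕ := un i * mu L i a + (2 ^ i - 1)

/-- The level of a coordinate. -/
def lv (x : ℕ) : ℕ := padicValNat 2 (x + 1)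

theorem lv_ps (L i a : ℕ) : lv (ps L i a) = i := by
  have h : ps L i a + 1 = 2 ^ i * (8192 * mu L i a + 1) := by
    have : 1 ≤ 2 ^ i := Nat.one_le_two_pow
    rw [ps, un_eq, add_assoc, Nat.sub_add_cancel this]; ring
  rw [lv, h, padicValNat.mul (by positivity) (by omega), padicValNat.prime_pow,
    padicValNat.eq_zero_of_not_dvd (by omega), add_zero]

theorem ps_div (L i a : ℕ) : ps L i a / un i = mu L i a := by
  have h : 2 ^ i - 1 < un i := by
    have : 1 ≤ 2 ^ i := Nat.one_le_two_pow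
    rw [un_eq]; omega
  rw [ps, Nat.mul_add_div (un_pos i), Nat.div_eq_of_lt h, add_zero]

theorem ps_div_succ (L i a : ℕ) : ps L (i + 1) a / un i = 2 * mu L (i + 1) a := by
  have h : 2 ^ (i + 1) - 1 < un i := by
    have : 1 ≤ 2 ^ i := Nat.one_le_two_pow
    rw [un_eq, pow_succ]; omega
  rw [ps, un_succ, mul_assoc, Nat.mul_add_div (un_pos i), Nat.div_eq_of_lt h, add_zero]

theorem ps_lt {L i : ℕ} (h : un i ≤ L) (a : ℕ) : ps L i a < L := by
  have h1 : 1 ≤ L / un i := (Nat.one_le_div_iff (un_pos i)).2 h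
  have h2 : ps L i a / un i < L / un i := by
    rw [ps_div, mu]; omega
  exact Nat.lt_of_div_lt_div h2

theorem amax_eq (L i : ℕ) : amax L i = L / un i + 1 := rfl

theorem amax_lt (L i : ℕ) : amax L i < L + 2 := by
  have := Nat.div_le_self L (un i)
  rw [amax_eq]; omega

theorem mu_bd {L i a : ℕ} (ha : a ≤ amax L i) : mu L i a ≤ a ∧ a ≤ mu L i a + 2 := by
  rw [amax_eq] at ha
  rw [mu]; omega

theorem pty_zero {L a b : ℕ} (ha : a ≤ amax L 0) (hb : b ≤ amax L 0) :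
    pty L 0 a b = some (⟨0, by omega⟩, ⟨a, ha.trans_lt (amax_lt _ _)⟩,
      ⟨b, hb.trans_lt (amax_lt _ _)⟩) := by
  have h1 := ha.trans_lt (amax_lt _ _)
  have h2 := hb.trans_lt (amax_lt _ _)
  unfold pty
  rw [dif_pos (by simp; omega)]
  simp

theorem mem_BS {L top : ℕ} {b : Blk} : b ∈ BS L top ↔ b.2.1 ≤ top ∧ b.2.2.1 ≤ amax L b.2.1 ∧
    b.2.2.2 ≤ amax L b.2.1 ∧ (b.1 = true → b.2.1 = 0) := by
  have := amax_lt L b.2.1
  simp only [BS, Finset.mem_filter, Finset.mem_product, Finset.mem_univ, Finset.mem_range, true_and]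
  constructor
  · rintro ⟨⟨h1, -, -⟩, h2, h3, h4⟩
    exact ⟨by omega, h2, h3, h4⟩
  · rintro ⟨h1, h2, h3, h4⟩
    exact ⟨⟨by omega, by omega, by omega⟩, h2, h3, h4⟩

theorem none_mem_NbI {L top : ℕ} {b : Blk} : none ∈ NbI L top b ↔ b.2.1 = top := by
  simp [NbI]

theorem some_mem_NbI {L top : ℕ} {b : Blk} {i a' b' : Fin (L + 2)} :
    some (i, a', b') ∈ NbI L top b ↔ a'.1 ≤ amax L i ∧ b'.1 ≤ amax L i ∧
      ((i.1 = b.2.1 ∧ a'.1 ≤ b.2.2.1 + 1 ∧ b.2.2.1 ≤ a'.1 + 1 ∧ b'.1 ≤ b.2.2.2 + 1 ∧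
          b.2.2.2 ≤ b'.1 + 1) ∨
        (i.1 = b.2.1 + 1 ∧ i.1 ≤ top ∧ a'.1 ≤ b.2.2.1 / 2 + 1 ∧ b.2.2.1 / 2 ≤ a'.1 + 1 ∧
          b'.1 ≤ b.2.2.2 / 2 + 1 ∧ b.2.2.2 / 2 ≤ b'.1 + 1)) := by
  simp only [NbI, Finset.mem_filter, Finset.mem_univ, true_and]

theorem card_box (i a a' b b' k : ℕ) (h1 : a' + 1 ≤ a + k) (h2 : b' + 1 ≤ b + k) :
    (({i} : Finset ℕ) ×ˢ Finset.Icc a a' ×ˢ Finset.Icc b b').card ≤ k * k := by
  rw [Finset.card_product, Finset.card_product, Finset.card_singleton, one_mul, Nat.card_Icc,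
    Nat.card_Icc]
  exact Nat.mul_le_mul (by omega) (by omega)

end Rou

open Rou in
/-- Routes and counts of the schedule. -/
theorem routes : RoutesStmt := by
  classical
  intro L top fin h1 h2 hfin
  change un top ≤ L at h1
  have h2' : L < un top * 2 := by unfold un; omega
  have hL : 0 < L := (un_pos top).trans_le h1
  have htop : top < L := by
    have := Nat.lt_two_pow_self (n := top)
    rw [un_eq] at h1; omega
  have hle : ∀ i ≤ top, un i ≤ L := fun i hi => (un_mono hi).trans h1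
  have hamt : amax L top = 2 := by
    rw [amax_eq, Nat.div_eq_of_lt_le (k := 1) (by omega) (by omega)]
  let tF : ℕ → Fin L := fun x => ⟨x % L, Nat.mod_lt _ hL⟩
  have tF_val : ∀ x < L, (tF x).val = x := fun x hx => Nat.mod_eq_of_lt hx
  have hroot : ps L (top + 1) 0 < L := by
    have : 1 ≤ 2 ^ top := Nat.one_le_two_pow
    rw [un_eq] at h1
    rw [ps, mu, Nat.zero_min, pow_succ]; omega
  let loc : Pty L → Fin L × Fin L := fun p => match p with
    | none => (tF (ps L (top + 1) 0), tF (ps L (top + 1) 0))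
    | some (i, a, b) => (tF (ps L i a), tF (ps L i b))
  let rg : Blk → Finset (Fin L × Fin L) := fun b =>
    mesh L (un b.2.1) b.2.2.1 b.2.2.2 fun x => lv x = b.2.1 ∨ lv x = b.2.1 + 1
  let rp : Pty L → Finset (Fin L × Fin L) := fun p => match p with
    | none => ∅
    | some (_, a, b) => mesh L (un 0) a b fun _ => True
  have hw : ∀ i ≤ top, ∀ a a', a' ≤ amax L i → a' ≤ a + 1 → a ≤ a' + 1 →
      Win (un i) a (tF (ps L i a')) := by
    intro i hi a a' e1 e2 e3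
    have := mu_bd e1
    rw [tF_val _ (ps_lt (hle i hi) _), Win, ps_div]
    omega
  have hw' : ∀ i, i + 1 ≤ top → ∀ a a', a' ≤ amax L (i + 1) → a' ≤ a / 2 + 1 → a / 2 ≤ a' + 1 →
      Win (un i) a (tF (ps L (i + 1) a')) := by
    intro i hi a a' e1 e2 e3
    have := mu_bd e1
    rw [tF_val _ (ps_lt (hle _ hi) _), Win, ps_div_succ]
    omega
  have hlv : ∀ i ≤ top, ∀ a, lv (tF (ps L i a)) = i := fun i hi a => by
    rw [tF_val _ (ps_lt (hle i hi) _), lv_ps]
  have hz : ∀ z, ∃ a b : Fin (L + 2), a.1 ≤ amax L 0 ∧ b.1 ≤ amax L 0 ∧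
      fin z = some (⟨0, by omega⟩, a, b) ∧ 8192 * a.1 ≤ z.1.1 + 5120 ∧ z.1.1 ≤ 8192 * a.1 + 5120 ∧
      8192 * b.1 ≤ z.2.1 + 5120 ∧ z.2.1 ≤ 8192 * b.1 + 5120 := by
    intro z
    obtain ⟨a, b, ha, hb, e, hm⟩ := hfin z
    refine ⟨_, _, ha, hb, e.trans (pty_zero ha hb), ?_⟩
    simp only [Rect.mem, sqr, cls, cl, gpos, del] at hm
    norm_num at hm
    simp only
    omega
  have hw0 : ∀ a x : ℕ, 8192 * a ≤ x + 5120 → x ≤ 8192 * a + 5120 → Win (un 0) a x := by
    intro a x e1 e2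
    rw [Win, un_eq, pow_zero, mul_one]
    omega
  refine ⟨⟨⟨loc, rg, rp, ?_, ?_, ?_, ?_, ?_, ?_, ?_, ?_, ?_⟩⟩, ?_, ?_⟩
  · intro b hb
    obtain ⟨e1, e2, e3, -⟩ := mem_BS.1 hb
    exact mesh_conn _ _ (hw _ e1 _ _ e2 (by omega) (by omega)) (hw _ e1 _ _ e3 (by omega) (by omega))
      (Or.inl (hlv _ e1 _)) (Or.inl (hlv _ e1 _))
  · intro z
    obtain ⟨a, b, -, -, e, e1, e2, e3, e4⟩ := hz z
    rw [e]
    exact mesh_conn z.1 z.2 (hw0 _ _ e1 e2) (hw0 _ _ e3 e4) trivial trivial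
  · rintro b hb (_ | ⟨i, a', b'⟩) hp
    · obtain ⟨e1, e2, e3, -⟩ := mem_BS.1 hb
      have e := none_mem_NbI.1 hp
      rw [e, hamt] at e2 e3
      have hq : ∀ a ≤ 2, Win (un b.2.1) a (tF (ps L (top + 1) 0)) := by
        intro a ha
        rw [tF_val _ hroot, e, Win, ps_div_succ, mu, Nat.zero_min]
        omega
      refine mem_mesh.2 ⟨hq _ e2, hq _ e3, Or.inl (Or.inr ?_)⟩
      change lv (tF _) = _
      rw [tF_val _ hroot, lv_ps, e]
    · obtain ⟨e1, -⟩ := mem_BS.1 hb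
      obtain ⟨f1, f2, ⟨f3, f4, f5, f6, f7⟩ | ⟨f3, f, f4, f5, f6, f7⟩⟩ := some_mem_NbI.1 hp
      · change (tF (ps L i a'), tF (ps L i b')) ∈ _
        rw [f3] at f1 f2 ⊢
        exact mem_mesh.2 ⟨hw _ e1 _ _ f1 f4 f5, hw _ e1 _ _ f2 f6 f7, Or.inl (Or.inl (hlv _ e1 _))⟩
      · change (tF (ps L i a'), tF (ps L i b')) ∈ _
        rw [f3] at f1 f2 f ⊢
        exact mem_mesh.2 ⟨hw' _ f _ _ f1 f4 f5, hw' _ f _ _ f2 f6 f7, Or.inl (Or.inr (hlv _ f _))⟩
  · intro z
    obtain ⟨a, b, ha, hb, e, -⟩ := hz z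
    rw [e]
    exact mem_mesh.2 ⟨hw 0 (Nat.zero_le _) _ _ ha (by omega) (by omega),
      hw 0 (Nat.zero_le _) _ _ hb (by omega) (by omega), Or.inl trivial⟩
  · intro z
    obtain ⟨a, b, -, -, e, e1, e2, e3, e4⟩ := hz z
    rw [e]
    exact mem_mesh.2 ⟨hw0 _ _ e1 e2, hw0 _ _ e3 e4, Or.inl trivial⟩
  · intro z
    let T : ℕ → Finset (ℕ × ℕ × ℕ) := fun i => {i} ×ˢ Finset.Icc (z.1 / un i - 8) (z.1 / un i + 8) ×ˢ
      Finset.Icc (z.2 / un i - 8) (z.2 / un i + 8)
    have hT : ∀ i, (T i).card ≤ 17 * 17 := fun i => card_box _ _ _ _ _ _ (by omega) (by omega)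
    refine le_trans (Finset.card_le_card (t := Finset.univ ×ˢ
      (T (lv z.1) ∪ T (lv z.1 - 1) ∪ T (lv z.2) ∪ T (lv z.2 - 1))) fun b hb => ?_) ?_
    · obtain ⟨⟨e1, e2⟩, ⟨e3, e4⟩, e5⟩ := mem_mesh.1 (Finset.mem_filter.1 hb).2
      have hm : b.2 ∈ T b.2.1 := by
        simp only [T, Finset.mem_product, Finset.mem_singleton, Finset.mem_Icc, true_and]
        omega
      simp only [Finset.mem_product, Finset.mem_univ, true_and, Finset.mem_union]
      rcases e5 with (e5 | e5) | (e5 | e5) <;> simp [e5, hm]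
    · rw [Finset.card_product, Finset.card_univ, Fintype.card_bool]
      have a1 := Finset.card_union_le (T (lv z.1) ∪ T (lv z.1 - 1) ∪ T (lv z.2)) (T (lv z.2 - 1))
      have a2 := Finset.card_union_le (T (lv z.1) ∪ T (lv z.1 - 1)) (T (lv z.2))
      have a3 := Finset.card_union_le (T (lv z.1)) (T (lv z.1 - 1))
      have := hT (lv z.1); have := hT (lv z.1 - 1); have := hT (lv z.2); have := hT (lv z.2 - 1)
      omega
  · intro z
    refine le_trans (Finset.card_le_card_of_injOn (t := ({0} ×ˢ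
      Finset.Icc (z.1 / un 0 - 8) (z.1 / un 0 + 8) ×ˢ Finset.Icc (z.2 / un 0 - 8) (z.2 / un 0 + 8)
      : Finset (ℕ × ℕ × ℕ)).image some)
      (Option.map fun x => (x.1.1, x.2.1.1, x.2.2.1)) (fun p hp => ?_) ?_) ?_
    · obtain ⟨e1, e2⟩ := Finset.mem_filter.1 (Finset.mem_coe.1 hp)
      obtain ⟨z', -, rfl⟩ := Finset.mem_image.1 e1
      obtain ⟨a, b, -, -, e, -⟩ := hz z'
      rw [e] at e2 ⊢
      obtain ⟨⟨e3, e4⟩, ⟨e5, e6⟩, -⟩ := mem_mesh.1 e2
      refine Finset.mem_coe.2 (Finset.mem_image_of_mem _ ?_)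
      simp only [Finset.mem_product, Finset.mem_singleton, Finset.mem_Icc, true_and]
      omega
    · refine (Option.map_injective fun x y h => ?_).injOn
      simp only [Prod.mk.injEq] at h
      exact Prod.ext (Fin.ext h.1) (Prod.ext (Fin.ext h.2.1) (Fin.ext h.2.2))
    · exact Finset.card_image_le.trans ((card_box _ _ _ _ _ 17 (by omega) (by omega)).trans
        (by norm_num))
  · intro b hb
    obtain ⟨e1, e2, e3, -⟩ := mem_BS.1 hb
    refine ⟨⟨some (⟨b.2.1, by omega⟩, ⟨b.2.2.1, e2.trans_lt (amax_lt _ _)⟩,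
      ⟨b.2.2.2, e3.trans_lt (amax_lt _ _)⟩), some_mem_NbI.2 ⟨e2, e3, Or.inl (by simp)⟩⟩, ?_⟩
    let T₁ : Finset (ℕ × ℕ × ℕ) := {b.2.1} ×ˢ Finset.Icc (b.2.2.1 - 1) (b.2.2.1 + 1) ×ˢ
      Finset.Icc (b.2.2.2 - 1) (b.2.2.2 + 1)
    let T₂ : Finset (ℕ × ℕ × ℕ) := {b.2.1 + 1} ×ˢ Finset.Icc (b.2.2.1 / 2 - 1) (b.2.2.1 / 2 + 1) ×ˢ
      Finset.Icc (b.2.2.2 / 2 - 1) (b.2.2.2 / 2 + 1)
    refine le_trans (Finset.card_le_card_of_injOn (t := insert none ((T₁ ∪ T₂).image some))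
      (Option.map fun x => (x.1.1, x.2.1.1, x.2.2.1)) ?_ ?_) ?_
    · rintro (_ | ⟨i, a', b'⟩) hp
      · exact Finset.mem_coe.2 (Finset.mem_insert_self _ _)
      · refine Finset.mem_coe.2 (Finset.mem_insert_of_mem (Finset.mem_image_of_mem _ ?_))
        have := (some_mem_NbI.1 (Finset.mem_coe.1 hp)).2.2
        simp only [T₁, T₂, Finset.mem_union, Finset.mem_product, Finset.mem_singleton,
          Finset.mem_Icc]
        omega
    · refine (Option.map_injective fun x y h => ?_).injOn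
      simp only [Prod.mk.injEq] at h
      exact Prod.ext (Fin.ext h.1) (Prod.ext (Fin.ext h.2.1) (Fin.ext h.2.2))
    · have a1 : T₁.card ≤ 3 * 3 := card_box _ _ _ _ _ _ (by omega) (by omega)
      have a2 : T₂.card ≤ 3 * 3 := card_box _ _ _ _ _ _ (by omega) (by omega)
      have a3 := Finset.card_union_le T₁ T₂
      have a4 := Finset.card_image_le (s := T₁ ∪ T₂) (f := some)
      have a5 := Finset.card_insert_le none ((T₁ ∪ T₂).image some)
      omega
  · rintro (_ | ⟨i, a', b'⟩)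
    · refine le_trans (Finset.card_le_card (t := Finset.univ ×ˢ ({top} ×ˢ Finset.Icc 0 2 ×ˢ
        Finset.Icc 0 2 : Finset (ℕ × ℕ × ℕ))) fun b hb => ?_) ?_
      · obtain ⟨e1, e2⟩ := Finset.mem_filter.1 hb
        obtain ⟨-, e3, e4, -⟩ := mem_BS.1 e1
        have e := none_mem_NbI.1 e2
        rw [e, hamt] at e3 e4
        simp only [Finset.mem_product, Finset.mem_univ, Finset.mem_singleton, Finset.mem_Icc,
          true_and]
        omega
      · simp
    · let T₁ : Finset (ℕ × ℕ × ℕ) := {i.1} ×ˢ Finset.Icc (a'.1 - 1) (a'.1 + 1) ×ˢ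
        Finset.Icc (b'.1 - 1) (b'.1 + 1)
      let T₂ : Finset (ℕ × ℕ × ℕ) := {i.1 - 1} ×ˢ Finset.Icc (2 * a'.1 - 2) (2 * a'.1 + 3) ×ˢ
        Finset.Icc (2 * b'.1 - 2) (2 * b'.1 + 3)
      refine le_trans (Finset.card_le_card (t := Finset.univ ×ˢ (T₁ ∪ T₂)) fun b hb => ?_) ?_
      · have := (some_mem_NbI.1 (Finset.mem_filter.1 hb).2).2.2
        simp only [T₁, T₂, Finset.mem_union, Finset.mem_product, Finset.mem_singleton,
          Finset.mem_Icc, Finset.mem_univ, true_and]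
        omega
      · have a1 : T₁.card ≤ 3 * 3 := card_box _ _ _ _ _ _ (by omega) (by omega)
        have a2 : T₂.card ≤ 6 * 6 := card_box _ _ _ _ _ _ (by omega) (by omega)
        have a3 := Finset.card_union_le T₁ T₂
        rw [Finset.card_product, Finset.card_univ, Fintype.card_bool]
        omega
  · refine le_trans (Finset.card_filter_le _ _) ?_
    simp only [Finset.card_product, Finset.card_univ, Fintype.card_bool, Finset.card_range]
    have : 8192 ≤ L := by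
      have : 1 ≤ 2 ^ top := Nat.one_le_two_pow
      rw [un_eq] at h1; omega
    calc 2 * ((top + 1) * ((L + 2) * (L + 2))) ≤ 2 * (L * ((2 * L) * (2 * L))) := by
          gcongr <;> omega
      _ ≤ 16 * L ^ 3 := by nlinarith [Nat.zero_le (L ^ 3)]
  · intro p
    rcases (Finset.univ.filter fun z => fin z = p).eq_empty_or_nonempty with h | ⟨z₀, hz₀⟩
    · rw [h]; simp
    obtain ⟨a, b, -, -, e, -⟩ := hz z₀
    obtain ⟨A, hA⟩ : ∃ A, A = 8192 * a.1 := ⟨_, rfl⟩
    obtain ⟨B, hB⟩ : ∃ B, B = 8192 * b.1 := ⟨_, rfl⟩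
    obtain ⟨r, hr⟩ : ∃ r, r = 5120 := ⟨_, rfl⟩
    have hc := card_box 0 (A - r) (A + r) (B - r) (B + r) (2 * r + 1) (by omega) (by omega)
    have hK : (2 * r + 1) * (2 * r + 1) ≤ K0 := by rw [hr, K0]; norm_num
    refine le_trans (Finset.card_le_card_of_injOn
      (fun z => (0, z.1.1, z.2.1)) (fun z hz' => ?_) fun z _ z' _ h => ?_) (hc.trans hK)
    · obtain ⟨a', b', -, -, e', e1, e2, e3, e4⟩ := hz z
      have f1 := (Finset.mem_filter.1 (Finset.mem_coe.1 hz')).2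
      have f2 := (Finset.mem_filter.1 hz₀).2
      rw [← f2, e, e'] at f1
      simp only [Option.some.injEq, Prod.mk.injEq, true_and] at f1
      rw [f1.1] at e1 e2
      rw [f1.2] at e3 e4
      simp only [Finset.coe_product, Finset.coe_singleton, Finset.coe_Icc, Set.mem_prod,
        Set.mem_singleton_iff, Set.mem_Icc, true_and]
      omega
    · simp only [Prod.mk.injEq, true_and] at h
      exact Prod.ext (Fin.ext h.1) (Fin.ext h.2)

end Crest.Agent.N336.P.Geo
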